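import Vale.Agent.P210E.Defs
import Vale.Agent.P210J.Jet

/-!
# P210F: the curvature and the gradients on the graphs converge along the neck
-/

open Metric Filter Topology Set
open scoped ContDiff
open Vale.Agent.P366.Stmt (E)
open Vale.Agent.P366M Vale.Agent.P366M.Gr Vale.Agent.P366M.Y.C Vale.Agent.P210G
open Vale.Agent.P366D (pb snc ini pull Sub jm SmM)
open Vale.Agent.P366P (Cy Cv CvM CvT prd)
open Vale.Agent.P210J
open Vale.Agent.P210E (nk)
open Fin (last)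

noncomputable section

namespace Vale.Agent.P210F

namespace Jt

variable {I : Type} {k : ℕ} {X : Type} [Mf0 (k + 1) X] {Z : Type} [Mf0 k Z] {e : Ch (k + 1) X}
  {π : E (k + 1) → E k} {x : E (k + 1)} {T : Fld (k + 1) X} {U : Fin (k + 1) → X → ℝ}
  {l : Filter I} {u : I → X → ℝ} {S r : ℝ} {φ : E k → E (k + 1)} {y₀ : E k}
  {Ψ : I → E (k + 1) → E (k + 1)} {V B : Set X} {ι : Z → X} {c : Ch k Z}

/-- continuous convergence in the parametrisations gives convergence along the neck -/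
theorem scheme (h : Dt l u S ι e φ π y₀ r Ψ V c) {F : I → X → ℝ} {f : Z → ℝ} (hf : Continuous f)
    (key : ∀ x ∈ Cy (closedBall y₀ r) S, Tendsto
      (fun q : I × E (k + 1) => F q.1 (e.symm (Ψ q.1 q.2))) (l ×ˢ 𝓝 x) (𝓝 (f (c.symm (ini x))))) :
    Tendsto (fun p : I × X => F p.1 p.2) (nk l u S (ι (c.symm y₀))) (𝓝 (f (c.symm y₀))) := by
  refine tendsto_nhds.2 fun W hW hz => ?_
  obtain ⟨r', p1, r0⟩ := ((((eventually_closedBall_subset
    ((hf.comp (cont_symm h.mem)).continuousAt.preimage_mem_nhds (hW.mem_nhds hz))).and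
      (eventually_le_nhds h.rg.r0)).filter_mono nhdsWithin_le_nhds).and
      (self_mem_nhdsWithin (s := Ioi 0))).exists
  have h' := h.rg.shrink r0 p1.2 univ_mem
  have e0 := (h.eq _ (mem_closedBall_self h.rg.r0.le)).self_of_nhds
  have h1 := P366P.ev_cpt (P := fun i x => F i (e.symm (Ψ i x)) ∈ W)
    (P366P.cpt_Cy (isCompact_closedBall y₀ r') S) fun x hx =>
      key x ⟨closedBall_subset_closedBall p1.2 hx.1, hx.2⟩ (hW.mem_nhds (p1.1 hx.1))
  refine mem_inf_principal.2 (((h1.and h'.cov).prod_mk (e0 ▸ h'.nhd)).mono fun p q hS => ?_)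
  obtain ⟨_, ⟨y, hy, rfl⟩, e1⟩ := q.1.2 p.2 q.2 hS
  have := q.1.1 y hy
  rwa [e1] at this

theorem ev_pt (h : RgX l u S e φ π y₀ r Ψ V) (hu : ∀ i, Smooth (u i))
    (hx : x ∈ Cy (closedBall y₀ r) S) : ∀ᶠ q in l ×ˢ 𝓝 x, Pt (u q.1) e π (Ψ q.1) q.2 :=
  (P366P.ev_nhds (P := fun i y => ContDiffAt ℝ ∞ (Ψ i) y ∧ u i (e.symm (Ψ i y)) = y (last k))
    (h.sm x hx)).mono fun q p => ⟨h.mem, h.smπ, h.prj _, p,
      .of_forall fun _ => CD.contDiffAt (hu q.1)⟩

theorem t_some (l : Filter I) (x : E (k + 1)) :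
    Tendsto (fun q : I × E (k + 1) => (some q.1, q.2)) (l ×ˢ 𝓝 x) (fl l ×ˢ 𝓝 x) :=
  ((tendsto_fl l).comp tendsto_fst).prodMk tendsto_snd

end Jt

open Jt in
/-- **JET** -/
theorem jet : P210E.JET := by
  intro I l k X _ Z _ ι B u S z T hι hu hr hT
  obtain ⟨e, φ, π, y₀, r, Ψ, V, c, h, -, -, rfl⟩ := hr.dt hι univ_mem
  have γ0 := hι.met hT
  refine ⟨fun U hU => ?_, fun a ha => ?_⟩
  · have w0 := hU.pull le_rfl hι.sm
    refine scheme h (F := fun i => Rv (gb T 1 (u i)) U) (sm_Rv γ0 w0).cont fun x hx => ?_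
    have t1 := (cv_RvE (m := 0) (h.cv_g hx hT) (h.det_pos hι hx hT) (cv_pc
      ((h.rg.cvM hx).mono (by norm_num)) (hU _ h.rg.mem))).b0.cv.comp (t_some l x)
    rw [RvE_congr (h.lim_g hι hx T) (dt_pc h hι hx U), RvE_prd (γ0.rep h.mem),
      RvE_rep h.mem γ0 w0] at t1
    exact t1.congr' ((ev_pt h.rg hu hx).mono fun q p => pt_Rv p (hu _) hT hU)
  · have b0 := P366D.smooth_comp hι.sm ha
    refine scheme h (F := fun i => gn (gb T 1 (u i)) a) (γ0.cont_gn b0.one) fun x hx => ?_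
    have t1 := ((h.cv_g hx hT).ip (h.det_pos hι hx hT) (h.cv_f hx ha) (h.cv_f hx ha)).b0.cv.comp
      (t_some l x)
    rw [P366Z.ip_of_eq (h.lim_g hι hx T).self_of_nhds,
      P366Z.ip_congr (h.lim_f hx a) (h.lim_f hx a), P366P.ip_prd_ini (γ0.rep h.mem),
      ip_rep h.mem _ (b0.diff _) (b0.diff _)] at t1
    exact (t1.congr' ((ev_pt h.rg hu hx).mono fun q p => p.ip T (ha.diff _) .rfl)).sqrt

end Vale.Agent.P210F
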