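import Mathlib.Analysis.SpecialFunctions.SmoothTransition
import Mathlib.Analysis.SpecialFunctions.Sqrt

/-!
# P210F: the real inequalities of the flat round
-/

open Set
open scoped ContDiff

noncomputable section

namespace Vale.Agent.P210F.Al

theorem amgm {u p q : ℝ} (hp : 0 ≤ p) (hq : 0 ≤ q) (h : u ^ 2 ≤ 4 * p * q) : |u| ≤ p + q :=
  abs_le_of_sq_le_sq' (by nlinarith [sq_nonneg (p - q)]) (by linarith) |> abs_le.2

theorem split {Q a b : ℝ} (ha : 0 ≤ a) (hb : 0 ≤ b) (h : Q ^ 2 ≤ a + b) :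
    ∃ Q₁ Q₂, Q = Q₁ + Q₂ ∧ Q₁ ^ 2 ≤ a ∧ Q₂ ^ 2 ≤ b := by
  rcases (add_nonneg ha hb).eq_or_lt with h0 | h0
  · refine ⟨0, 0, ?_, by simpa using ha, by simpa using hb⟩
    have : Q ^ 2 = 0 := le_antisymm (h0 ▸ h) (sq_nonneg Q)
    simpa using this
  · have k : ∀ c, 0 ≤ c → c ≤ a + b → (c / (a + b) * Q) ^ 2 ≤ c := fun c c0 c1 => by
      rw [mul_pow, div_pow, div_mul_eq_mul_div, div_le_iff₀ (by positivity)]
      calc c ^ 2 * Q ^ 2 ≤ c ^ 2 * (a + b) := by gcongr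
        _ = c * (c * (a + b)) := by ring
        _ ≤ c * ((a + b) * (a + b)) := by gcongr
        _ = _ := by ring
    refine ⟨a / (a + b) * Q, b / (a + b) * Q, ?_, k a ha (by linarith), k b hb (by linarith)⟩
    field_simp

theorem cs2 {Q r e Z β : ℝ} (hr : 0 ≤ r) (he : 0 ≤ e) (h : Q ^ 2 ≤ r * e) :
    (Q + Z * β) ^ 2 ≤ (r + Z ^ 2) * (e + β ^ 2) := by
  have := amgm (u := 2 * Q * Z * β) (p := r * β ^ 2) (q := Z ^ 2 * e) (by positivity)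
    (by positivity) (by nlinarith [mul_le_mul_of_nonneg_right h (sq_nonneg (Z * β))])
  nlinarith [le_abs_self (2 * Q * Z * β)]

/-- the gain of one step -/
theorem gain {τ R x ρ A Z D σ β B P Q a p q : ℝ} (hτ : 0 < τ) (hR : 0 < R) (hx : 1 ≤ x)
    (ρ0 : 0 ≤ ρ) (ρ1 : ρ ≤ R) (hA : 0 ≤ A) (σ0 : 0 ≤ σ) (σ1 : σ ≤ 1) (hD : σ ≤ D) (hB : 0 ≤ B)
    (hβ : β ^ 2 ≤ B * σ) (hAβ : A * β = 0) (hP : P ^ 2 ≤ ρ * σ) (hp : 0 ≤ p) (hq : 0 ≤ q)
    (hQ : Q ^ 2 ≤ ρ * ((p + q) * σ)) (ha : a ^ 2 ≤ σ * (τ * x ^ 2 + A) ^ 3 / 32)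
    (hc : 128 * (2 + 2 * p) ≤ τ * R) :
    (τ * x ^ 2) ^ 2 * Z ^ 2 / 2 - 2 * (τ * x ^ 2) * B - 64 * x ^ 2 * q / R ≤
      ((τ * x ^ 2 + A) * Z) ^ 2 + 2 * ((τ * x ^ 2 + A) * (D - β) +
        Z * (2 * τ * x ^ 3 / R * (2 * Z * D + 2 * P - 2 * Q) + a)) := by
  obtain ⟨Q₁, Q₂, rfl, h1, h2⟩ := split (Q := Q) (a := ρ * p * σ) (b := ρ * q * σ) (by positivity)
    (by positivity) (by linarith)
  have x0 : 0 < x := by linarith
  have T0 : 0 < τ * x ^ 2 := by positivity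
  have T'0 : 0 ≤ 2 * τ * x ^ 3 / R := by positivity
  have e1 : (2 * τ * x ^ 3 / R) ^ 2 * R = 4 * (τ * x ^ 2) ^ 2 * x ^ 2 / R := by field_simp; ring
  have e2 : (2 * τ * x ^ 3 / R) ^ 2 * R * (τ * R) = 4 * (τ * x ^ 2) ^ 3 := by field_simp; ring
  generalize τ * x ^ 2 = T at *
  generalize 2 * τ * x ^ 3 / R = T' at *
  have a2 := amgm (u := 2 * β) (p := σ / 2) (q := 2 * B) (by positivity) (by positivity)
    (by nlinarith)
  have a4 := amgm (u := 2 * Z * a) (p := (T + A) * σ / 2) (q := (T + A) ^ 2 * Z ^ 2 / 16)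
    (by positivity) (by positivity) (by nlinarith [mul_le_mul_of_nonneg_left ha (sq_nonneg Z)])
  have b1 : (P - Q₁) ^ 2 ≤ R * σ * (2 + 2 * p) := by
    have : ρ * σ * (2 + 2 * p) ≤ R * σ * (2 + 2 * p) := by gcongr
    nlinarith [sq_nonneg (P + Q₁)]
  have b2 : T' ^ 2 * R * (128 * (2 + 2 * p)) ≤ 4 * T ^ 3 := by
    rw [← e2]; gcongr
  have a5 := amgm (u := 4 * T' * Z * (P - Q₁)) (p := T * σ) (q := T ^ 2 * Z ^ 2 / 8)
    (by positivity) (by positivity) (by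
      calc (4 * T' * Z * (P - Q₁)) ^ 2 = 16 * T' ^ 2 * Z ^ 2 * (P - Q₁) ^ 2 := by ring
        _ ≤ 16 * T' ^ 2 * Z ^ 2 * (R * σ * (2 + 2 * p)) := by gcongr
        _ = Z ^ 2 * σ / 8 * (T' ^ 2 * R * (128 * (2 + 2 * p))) := by ring
        _ ≤ Z ^ 2 * σ / 8 * (4 * T ^ 3) := by gcongr
        _ = _ := by ring)
  have b3 : Q₂ ^ 2 ≤ R * q := h2.trans (by
    calc ρ * q * σ ≤ R * q * 1 := by gcongr
      _ = _ := mul_one _)
  have a6 := amgm (u := 4 * T' * Z * Q₂) (p := T ^ 2 * Z ^ 2 / 4) (q := 64 * x ^ 2 * q / R)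
    (by positivity) (by positivity) (by
      calc (4 * T' * Z * Q₂) ^ 2 = 16 * T' ^ 2 * Z ^ 2 * Q₂ ^ 2 := by ring
        _ ≤ 16 * T' ^ 2 * Z ^ 2 * (R * q) := by gcongr
        _ = 16 * Z ^ 2 * q * (T' ^ 2 * R) := by ring
        _ = _ := by rw [e1]; ring)
  have c1 : 2 * T * β ≤ T * (σ / 2 + 2 * B) := by
    have := mul_le_mul_of_nonneg_left ((le_abs_self _).trans a2) T0.le
    linarith
  have c2 : (T + A) * σ ≤ (T + A) * D := by gcongr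
  have c3 : 0 ≤ T' * Z ^ 2 * D := by have := σ0.trans hD; positivity
  have c4 : T ^ 2 * Z ^ 2 ≤ (T + A) ^ 2 * Z ^ 2 := by gcongr; linarith
  have c5 : 0 ≤ A * σ := by positivity
  have c6 : 0 ≤ T ^ 2 * Z ^ 2 := by positivity
  have := neg_abs_le (2 * Z * a)
  have := neg_abs_le (4 * T' * Z * (P - Q₁))
  have := le_abs_self (4 * T' * Z * Q₂)
  have e3 : ((T + A) * Z) ^ 2 + 2 * ((T + A) * (D - β) +
      Z * (T' * (2 * Z * D + 2 * P - 2 * (Q₁ + Q₂)) + a)) = (T + A) ^ 2 * Z ^ 2 +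
      2 * ((T + A) * D) - 2 * T * β - 2 * (A * β) + 4 * (T' * Z ^ 2 * D) +
      4 * T' * Z * (P - Q₁) - 4 * T' * Z * Q₂ + 2 * Z * a := by ring
  rw [e3]
  linarith

/-- the blow-up factor -/
def xf (R ρ : ℝ) : ℝ := R / (R - ρ)

theorem xf_ge {R ρ : ℝ} (h0 : 0 ≤ ρ) (h1 : ρ < R) : 1 ≤ xf R ρ := by
  rw [xf, le_div_iff₀ (by linarith)]; linarith

theorem xf_mono {R ρ ρ' : ℝ} (hR : 0 ≤ R) (h : ρ ≤ ρ') (h1 : ρ' < R) : xf R ρ ≤ xf R ρ' := by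
  unfold xf
  gcongr

theorem xf_der {R ρ : ℝ} (τ : ℝ) (hR : 0 < R) (h1 : ρ < R) :
    HasDerivAt (fun t => τ * xf R t ^ 2) (2 * τ * xf R ρ ^ 3 / R) ρ := by
  have h : R - ρ ≠ 0 := by linarith
  have := ((((hasDerivAt_id ρ).const_sub R).inv h).const_mul R).fun_pow 2 |>.const_mul τ
  refine (this.congr_deriv ?_).congr_of_eventuallyEq (Filter.Eventually.of_forall fun t => ?_)
  · simp only [xf, id, Pi.inv_apply, Nat.add_one_sub_one, pow_one, neg_neg, Nat.cast_ofNat]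
    field_simp
  · simp [xf, div_eq_mul_inv]

/-- the accumulated gain -/
def G (τ R q ρ E : ℝ) (k : ℕ) : ℝ :=
  τ ^ 2 * R * (xf R ρ ^ 3 - 1) / 6 - 2 * (τ * xf R ρ ^ 2) * E - k * (64 * xf R ρ ^ 2 * q / R)

theorem G_zero {τ R q : ℝ} (hR : 0 < R) : G τ R q 0 0 0 = 0 := by
  simp [G, xf, hR.ne']

theorem G_step {τ R q ρ E Z B : ℝ} (k : ℕ) (hτ : 0 < τ) (hR : 0 < R) (hq : 0 ≤ q) (h0 : 0 ≤ ρ)
    (hE : 0 ≤ E) (h1 : ρ + Z ^ 2 < R) :
    G τ R q (ρ + Z ^ 2) (E + B) (k + 1) ≤ G τ R q ρ E k +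
      ((τ * xf R (ρ + Z ^ 2) ^ 2) ^ 2 * Z ^ 2 / 2 - 2 * (τ * xf R (ρ + Z ^ 2) ^ 2) * B -
        64 * xf R (ρ + Z ^ 2) ^ 2 * q / R) := by
  have hZ := sq_nonneg Z
  have a1 := xf_ge h0 (by linarith : ρ < R)
  have a2 := xf_mono hR.le (by linarith : ρ ≤ ρ + Z ^ 2) h1
  have a3 : R * (xf R (ρ + Z ^ 2) - xf R ρ) = xf R ρ * xf R (ρ + Z ^ 2) * Z ^ 2 := by
    have : R - ρ ≠ 0 := by linarith
    have : R - (ρ + Z ^ 2) ≠ 0 := by linarith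
    unfold xf; field_simp; ring
  unfold G
  set y := xf R (ρ + Z ^ 2)
  set x := xf R ρ
  have x0 : 0 ≤ x := by linarith
  have b1 : R * (y ^ 3 - x ^ 3) ≤ 3 * y ^ 4 * Z ^ 2 := by
    calc R * (y ^ 3 - x ^ 3) = R * (y - x) * (y ^ 2 + y * x + x ^ 2) := by ring
      _ = x * y * Z ^ 2 * (y ^ 2 + y * x + x ^ 2) := by rw [a3]
      _ ≤ y * y * Z ^ 2 * (y ^ 2 + y * y + y ^ 2) := by
        have : 0 ≤ y := by linarith
        gcongr
      _ = _ := by ring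
  have b2 : τ * x ^ 2 * E ≤ τ * y ^ 2 * E := by gcongr
  have b3 : k * (64 * x ^ 2 * q / R) ≤ k * (64 * y ^ 2 * q / R) := by gcongr
  have b4 := mul_le_mul_of_nonneg_left b1 (sq_nonneg τ)
  push_cast
  nlinarith

theorem cub {δ K x φ : ℝ} (hδ : 0 < δ) (hK : 0 ≤ K) (hx : 0 ≤ x) (φ0 : 0 ≤ φ) (φ1 : φ ≤ 1) :
    K * x ^ 2 * φ ≤ δ * x ^ 3 + K ^ 3 / δ ^ 2 * φ := by
  rcases le_total x (K / δ) with h | h
  · have : K * x ^ 2 * φ ≤ K * (K / δ) ^ 2 * φ := by gcongr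
    have e : K * (K / δ) ^ 2 * φ = K ^ 3 / δ ^ 2 * φ := by field_simp
    have : 0 ≤ δ * x ^ 3 := by positivity
    linarith
  · rw [div_le_iff₀ hδ] at h
    have : K * x ^ 2 * φ ≤ x * δ * x ^ 2 * 1 := by gcongr
    have : 0 ≤ K ^ 3 / δ ^ 2 * φ := by positivity
    nlinarith

theorem G_ge {τ R ρ E p L φ : ℝ} {k m : ℕ} (hτ : 0 < τ) (hR : 0 < R) (h0 : 0 ≤ ρ) (h1 : ρ < R)
    (hL : 0 ≤ L) (φ0 : 0 ≤ φ) (φ1 : φ ≤ 1) (hE : E ≤ p + L * φ) (hk : k ≤ m)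
    (hc : 24 * p ≤ τ * R) :
    -(τ ^ 2 * R / 6) - (2 * τ * L + m * (64 * L / R)) ^ 3 / (τ ^ 2 * R / 12) ^ 2 * φ ≤
      G τ R (L * φ) ρ E k := by
  have a1 := xf_ge h0 h1
  unfold G
  set x := xf R ρ
  have x0 : 0 ≤ x := by linarith
  have b1 := cub (δ := τ ^ 2 * R / 12) (K := 2 * τ * L + m * (64 * L / R)) (x := x) (φ := φ)
    (by positivity) (by positivity) x0 φ0 φ1
  have b2 : τ * x ^ 2 * E ≤ τ * x ^ 2 * (p + L * φ) := by gcongr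
  have b3 : (k : ℝ) * (64 * x ^ 2 * (L * φ) / R) ≤ m * (64 * x ^ 2 * (L * φ) / R) := by gcongr
  have b4 : τ * x ^ 2 * (24 * p) ≤ τ * x ^ 2 * (τ * R * x) := by
    refine mul_le_mul_of_nonneg_left ?_ (by positivity)
    nlinarith [mul_pos hτ hR]
  have b5 : (2 * τ * L + m * (64 * L / R)) * x ^ 2 * φ =
      2 * (τ * x ^ 2 * (L * φ)) + m * (64 * x ^ 2 * (L * φ) / R) := by ring
  nlinarith

theorem mono_odd {k : ℝ → ℝ} (k0 : ∀ t, 0 ≤ t → 0 ≤ k t) (hk : Monotone k) :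
    Monotone fun z => k (z ^ 2) * z := by
  have h : ∀ a b, 0 ≤ a → a ≤ b → k (a ^ 2) * a ≤ k (b ^ 2) * b := fun a b a0 ab =>
    mul_le_mul (hk (by gcongr)) ab a0 (k0 _ (sq_nonneg b))
  intro a b ab
  rcases le_total 0 a with a0 | a0
  · exact h a b a0 ab
  rcases le_total 0 b with b0 | b0
  · exact (mul_nonpos_of_nonneg_of_nonpos (k0 _ (sq_nonneg a)) a0).trans
      (mul_nonneg (k0 _ (sq_nonneg b)) b0)
  · have := h (-b) (-a) (by linarith) (by linarith)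
    simp only [neg_sq, mul_neg] at this
    linarith

theorem st_bd : ∃ C > (0 : ℝ), ∀ t, |deriv Real.smoothTransition t| ≤ C ∧
    (t ∉ Icc (0 : ℝ) 1 → deriv Real.smoothTransition t = 0) := by
  have hc : Continuous (deriv Real.smoothTransition) :=
    (Real.smoothTransition.contDiff (n := 1)).continuous_deriv le_rfl
  obtain ⟨C, hC⟩ := isCompact_Icc.exists_bound_of_continuousOn (hc.continuousOn (s := Icc 0 1))
  have z : ∀ t, t ∉ Icc (0 : ℝ) 1 → deriv Real.smoothTransition t = 0 := fun t ht => by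
    rcases lt_or_ge t 0 with h | h
    · have : Real.smoothTransition =ᶠ[nhds t] fun _ => 0 :=
        (gt_mem_nhds h).mono fun y hy => Real.smoothTransition.zero_of_nonpos hy.le
      rw [this.deriv_eq, deriv_const]
    · have : Real.smoothTransition =ᶠ[nhds t] fun _ => 1 :=
        (lt_mem_nhds (not_le.1 fun k => ht ⟨h, k⟩)).mono fun y hy =>
          Real.smoothTransition.one_of_one_le hy.le
      rw [this.deriv_eq, deriv_const]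
  refine ⟨|C| + 1, by positivity, fun t => ⟨?_, z t⟩⟩
  by_cases ht : t ∈ Icc (0 : ℝ) 1
  · exact (hC t ht).trans (by linarith [le_abs_self C])
  · rw [z t ht, abs_zero]; positivity

end Vale.Agent.P210F.Al
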