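import Vale.Agent.P210F.Sta
import Vale.Agent.P210F.Alg
import Vale.Agent.P210C.Main
import Vale.Agent.P210G.Gid

/-!
# P210F: the graph of one step, linear algebra
-/

open Filter Topology Set
open scoped ContDiff
open Vale.Agent.P366M Vale.Agent.P366M.Gr Vale.Agent.P366M.Y.C Vale.Agent.P210G Vale.Agent.P210U
open Vale.Agent.P210C

noncomputable section

namespace Vale.Agent.P210F.Al

variable {n : ℕ} {X : Type} [Mf0 n X] {g g' : Fld n X} {v : Fin n → X → ℝ} {x : X}

theorem hv_shift (g : Fld n X) (v : Fin n → X → ℝ) (w : X → ℝ) (c : ℝ) :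
    hv g v (fun y => w y + c) = hv g v w := by
  have : nv g (fun y => w y + c) = nv g w := by
    funext i y
    simp only [nv, gr, ww, ip, pd_add_const]
  rw [hv, hv, this]

/-- the solution of the singular equation -/
theorem ex [CompactSpace X] (hn : 2 ≤ n) (hg : Met g) (hv' : CC ∞ v) {τ R μ : ℝ} (hτ : 0 < τ)
    (hμ : 0 < μ) {ρ β A : X → ℝ} (hρ : Smooth ρ) (hβ : Smooth β) (hA : Smooth A)
    (ρ0 : ∀ x, 0 ≤ ρ x) (ρ1 : ∀ x, ρ x ≤ R - μ) (A0 : ∀ x, 0 ≤ A x) :
    ∃ (w : X → ℝ) (μ' : ℝ) (f : ℝ → ℝ), Smooth w ∧ 0 < μ' ∧ ContDiff ℝ ∞ f ∧ Monotone f ∧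
      (∀ t, 0 ≤ f t) ∧ ∀ x, ρ x + (w x - β x) ^ 2 ≤ R - μ' ∧
        hv g v w x = (τ * xf R (ρ x + (w x - β x) ^ 2) ^ 2 + A x) * (w x - β x) ∧
        hv g v w x = (f (ρ x + (w x - β x) ^ 2) + A x) * (w x - β x) := by
  obtain ⟨x0⟩ : Nonempty X := inferInstance
  have hR : 0 < R := by linarith [ρ0 x0, ρ1 x0]
  have p1 : ∀ x, 0 < R - ρ x := fun x => by linarith [ρ1 x]
  set s : X → ℝ := fun x => √(R - ρ x) with hs
  have sm : Smooth s := CD.sqrt (CD.sub cd_const hρ) fun x => (p1 x).ne'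
  have sq : ∀ x, s x ^ 2 = R - ρ x := fun x => Real.sq_sqrt (p1 x).le
  have s0 : 0 < √μ := Real.sqrt_pos.2 hμ
  have s1 : ∀ x, √μ ≤ s x := fun x => Real.sqrt_le_sqrt (by linarith [ρ1 x])
  have s2 : ∀ x, s x ≤ 1 + R := fun x => by nlinarith [sq x, ρ0 x, sq_nonneg (s x - 1)]
  have sp : Smooth fun x => β x + s x := CD.add hβ sm
  have sn : Smooth fun x => β x - s x := CD.sub hβ sm
  obtain ⟨C₁, h₁⟩ := isCompact_univ.exists_bound_of_continuousOn
    (sm_hv hg hv' sp).cont.continuousOn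
  obtain ⟨C₂, h₂⟩ := isCompact_univ.exists_bound_of_continuousOn
    (sm_hv hg hv' sn).cont.continuousOn
  obtain ⟨B, h₃⟩ := isCompact_univ.exists_bound_of_continuousOn hβ.cont.continuousOn
  simp only [mem_univ, forall_const, Real.norm_eq_abs] at h₁ h₂ h₃
  set C := |C₁| + |C₂| + 1 with hC
  have C0 : 0 < C := by positivity
  obtain ⟨δ, δ0, δ1, δ2⟩ : ∃ δ > (0 : ℝ), δ ≤ √μ / 2 ∧ δ ≤ τ * R * √μ / (4 * (1 + R) * C) :=
    ⟨min _ _, lt_min (by positivity) (by positivity), min_le_left _ _, min_le_right _ _⟩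
  have δ3 : δ * √μ ≤ μ := by nlinarith [Real.mul_self_sqrt hμ.le]
  obtain ⟨κ, κ1, κ2, κ3, κ4⟩ := clamp1 (b := R - δ * √μ) (b' := R) (by nlinarith)
  set f : ℝ → ℝ := fun t => τ * xf R (κ t) ^ 2 with hf
  have x1 : ∀ t, 0 < xf R (κ t) := fun t => div_pos hR (by linarith [κ4 t])
  have f1 : ContDiff ℝ ∞ f := contDiff_const.mul ((contDiff_const.div (contDiff_const.sub κ1)
    fun t => by linarith [κ4 t]).pow 2)
  have f2 : Monotone f := fun a b h => by
    have := xf_mono hR.le (κ2 h) (κ4 b)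
    have := x1 a
    simp only [hf]
    gcongr
  have f3 : ∀ t, 0 ≤ t → τ ≤ f t := fun t ht => by
    have h0 : 0 ≤ κ t := by
      rw [← κ3 0 (by linarith [ρ0 x0, ρ1 x0])]; exact κ2 ht
    have := xf_ge h0 (κ4 t)
    simp only [hf]
    nlinarith [one_le_pow₀ this (n := 2)]
  set H : X → ℝ → ℝ → ℝ := fun x t _ => (f (ρ x + (t - β x) ^ 2) + A x) * (t - β x) with hH
  have H1 : SmH H univ := ((((smH_x hρ).add ((smH_t.sub (smH_x hβ)).pow 2)).comp
    fun _ _ _ _ => f1.contDiffAt).add (smH_x hA)).mul (smH_t.sub (smH_x hβ))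
  have H2 : ∀ x (u : ℝ), Monotone fun t => H x t u - τ * t := fun x u a b h => by
    have := mono_odd (k := fun t => f (ρ x + t) + A x - τ)
      (fun t ht => by linarith [f3 _ (add_nonneg (ρ0 x) ht), A0 x])
      (fun a b h => by have := f2 (add_le_add_right h (ρ x)); linarith) (sub_le_sub_right h (β x))
    simp only [hH] at this ⊢
    linarith
  have H3 : ∀ x t, 0 ≤ f (ρ x + (t - β x) ^ 2) + A x := fun x t => by
    linarith [f3 _ (add_nonneg (ρ0 x) (sq_nonneg (t - β x))), A0 x]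
  obtain ⟨w, w1, -, w2⟩ := capV' hn hg hv' (a := -B) (b := B) (H := H)
    (by linarith [abs_nonneg (β x0), h₃ x0]) hτ H1 (fun x u _ => H2 x u)
    (fun x => mul_nonpos_of_nonneg_of_nonpos (H3 x _) (by linarith [neg_abs_le (β x), h₃ x]))
    fun x => mul_nonneg (H3 x _) (by linarith [le_abs_self (β x), h₃ x])
  have r1 : ∀ x, ρ x + (s x - δ) ^ 2 ≤ R - δ * √μ := fun x => by nlinarith [sq x, s1 x]
  have bar : ∀ x, C ≤ (f (ρ x + (s x - δ) ^ 2) + A x) * (s x - δ) := fun x => by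
    have a1 : R / (2 * (1 + R) * δ) ≤ xf R (ρ x + (s x - δ) ^ 2) := by
      unfold xf
      gcongr
      · nlinarith [r1 x]
      · nlinarith [sq x, s2 x]
    have a2 := xf_ge (R := R) (add_nonneg (ρ0 x) (sq_nonneg (s x - δ))) (by nlinarith [r1 x])
    have a3 : τ * (R / (2 * (1 + R) * δ)) ≤ f (ρ x + (s x - δ) ^ 2) := by
      simp only [hf, κ3 _ (r1 x)]
      gcongr
      nlinarith
    have a4 : C ≤ τ * (R / (2 * (1 + R) * δ)) * (√μ / 2) := by
      rw [le_div_iff₀ (by positivity)] at δ2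
      have : τ * (R / (2 * (1 + R) * δ)) * (√μ / 2) = τ * R * √μ / (δ * (4 * (1 + R))) := by
        field_simp; ring
      rw [this, le_div_iff₀ (by positivity)]
      linarith
    refine a4.trans (mul_le_mul (by linarith [A0 x]) (by linarith [s1 x]) (by positivity) ?_)
    have : 0 ≤ τ * (R / (2 * (1 + R) * δ)) := by positivity
    linarith [A0 x]
  have st : ∀ x u, u ∈ Icc (0 : ℝ) 1 → StrictMonoOn (fun t => H x t u) univ := fun x u _ =>
    strict_of hτ ((H2 x u).monotoneOn _)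
  have up : ∀ x, w x ≤ β x + s x + -δ := cmp hg v w1 (CD.add sp cd_const) st (fun _ => trivial)
    (fun _ => trivial) (fun x => (w2 x).ge) fun x => by
      rw [hv_shift]
      have : β x + s x + -δ - β x = s x - δ := by ring
      simp only [hH, this]
      linarith [bar x, h₁ x, le_abs_self (hv g v (fun x => β x + s x) x), le_abs_self C₁,
        abs_nonneg C₂]
  have lo : ∀ x, β x - s x + δ ≤ w x := cmp hg v (CD.add sn cd_const) w1 st (fun _ => trivial)
    (fun _ => trivial) (fun x => by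
      rw [hv_shift]
      have : β x - s x + δ - β x = -(s x - δ) := by ring
      simp only [hH, this, neg_sq, mul_neg]
      linarith [bar x, h₂ x, neg_abs_le (hv g v (fun x => β x - s x) x), le_abs_self C₂,
        abs_nonneg C₁]) fun x => (w2 x).le
  have r2 : ∀ x, ρ x + (w x - β x) ^ 2 ≤ R - δ * √μ := fun x => by
    have := sq_le_sq' (a := w x - β x) (b := s x - δ) (by linarith [lo x]) (by linarith [up x])
    linarith [r1 x]
  refine ⟨w, δ * √μ, f, w1, by positivity, f1, f2, fun t => by positivity, fun x =>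
    ⟨r2 x, ?_, w2 x⟩⟩
  rw [w2 x]
  simp only [hH, hf, κ3 _ (r2 x)]

/-- the square of the sine of the slope -/
def sg (g : Fld n X) (w : X → ℝ) (x : X) : ℝ := ip g w w x / ww g 1 w x ^ 2

theorem one_le_w (hg : Met g) (w : X → ℝ) (x : X) : 1 ≤ ww g 1 w x := by
  have := w_sq hg w x
  nlinarith [w_pos hg w x, hg.ip_nonneg w x]

theorem sg_nonneg (hg : Met g) (w : X → ℝ) (x : X) : 0 ≤ sg g w x :=
  div_nonneg (hg.ip_nonneg w x) (sq_nonneg _)

theorem sg_le (hg : Met g) (w : X → ℝ) (x : X) : sg g w x ≤ 1 := by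
  rw [sg, div_le_one (pow_pos (w_pos hg w x) 2), w_sq hg]; linarith

theorem sg_le_dn (hg : Met g) (w : X → ℝ) (x : X) : sg g w x ≤ dn g w w x := by
  have := one_le_w hg w x
  exact div_le_div_of_nonneg_left (hg.ip_nonneg w x) (w_pos hg w x) (by nlinarith)

theorem dn_sq (hg : Met g) (w f : X → ℝ) (x : X) : dn g w f x ^ 2 ≤ ip g f f x * sg g w x := by
  rw [dn, sg, div_pow, ← mul_div_assoc, mul_comm]
  gcongr
  exact hg.ip_cs w f x

variable {J : Type} {s : Finset J} {u : J → X → ℝ}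

theorem quad_eq (h : ∀ i k, g' x i k = g x i k + ∑ j ∈ s, pd i (u j) x * pd k (u j) x)
    (ξ : Fin n → ℝ) : ∑ i, ∑ k, g' x i k * ξ i * ξ k =
      ∑ i, ∑ k, g x i k * ξ i * ξ k + ∑ j ∈ s, (∑ i, pd i (u j) x * ξ i) ^ 2 := by
  simp only [h, add_mul, Finset.sum_add_distrib, sq, Finset.sum_mul, Finset.mul_sum]
  congr 1
  rw [Finset.sum_comm (s := s)]
  refine Finset.sum_congr rfl fun i _ => ?_
  rw [Finset.sum_comm (s := s)]
  exact Finset.sum_congr rfl fun _ _ => Finset.sum_congr rfl fun _ _ => by ring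

theorem sum_dn_le (hg : Met g) (hg' : Met g')
    (h : ∀ i k, g' x i k = g x i k + ∑ j ∈ s, pd i (u j) x * pd k (u j) x) (w : X → ℝ) :
    ∑ j ∈ s, dn g' w (u j) x ^ 2 ≤ sg g' w x := by
  have h1 := quad_eq h fun i => nv g' w i x
  have h2 := hg.g_nonneg x fun i => nv g' w i x
  have h3 : ∑ i, ∑ k, g' x i k * nv g' w i x * nv g' w k x = sg g' w x := by
    rw [sg, ip_eq_gr, Finset.sum_div]
    refine Finset.sum_congr rfl fun i _ => ?_
    rw [← hg'.g_up_mul x i fun l => pd l w x, Finset.sum_mul, Finset.sum_div]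
    refine Finset.sum_congr rfl fun k _ => ?_
    simp only [nv, gr]
    ring
  simp only [dn_eq hg']
  linarith

theorem sum_ip_le (hg : Met g) (hg' : Met g')
    (h : ∀ i k, g' x i k = g x i k + ∑ j ∈ s, pd i (u j) x * pd k (u j) x) :
    ∑ j ∈ s, ip g' (u j) (u j) x ≤ n := by
  have h1 : ∑ i, ∑ k, up g' i k x * g' x i k = n := by
    have : ∀ i, ∑ k, up g' i k x * g' x i k = 1 := fun i => by
      simpa only [hg'.sy x i, if_true] using hg'.up_mul i i x
    simp [this]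
  have h2 : 0 ≤ ∑ i, ∑ k, up g' i k x * g x i k := by
    have := ((hg'.inv_pos x).posSemidef.hadamard (hg.pos x).posSemidef).dotProduct_mulVec_nonneg
      fun _ => 1
    simp [dotProduct, Matrix.mulVec] at this
    exact this
  have h3 : ∑ i, ∑ k, up g' i k x * g' x i k = ∑ i, ∑ k, up g' i k x * g x i k +
      ∑ j ∈ s, ip g' (u j) (u j) x := by
    simp only [h, mul_add, Finset.sum_add_distrib, Finset.mul_sum, ip]
    congr 1
    rw [Finset.sum_comm (s := s)]
    refine Finset.sum_congr rfl fun i _ => ?_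
    rw [Finset.sum_comm (s := s)]
    exact Finset.sum_congr rfl fun _ _ => Finset.sum_congr rfl fun _ _ => by ring
  linarith

end Vale.Agent.P210F.Al
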