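import Vale.Agent.P210U.Sta

/-!
# P210F: flat rounds, statements (helper15)

`FLAT1 n` is one round, `FLAT n` the iteration.  The collar is `0 ≤ ϖ ≤ 1`.
-/

open Filter Topology Set
open scoped ContDiff
open Vale.Agent.P366M Vale.Agent.P210G Vale.Agent.P210U

noncomputable section

namespace Vale.Agent.P210F

variable {n : ℕ} {X : Type} [Mf0 n X] {J : Type} [Fintype J]

/-- the input of a flat round -/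
structure FIn (g : Fld n X) (v : Fin n → X → ℝ) (b : J → X → ℝ) (φ ϖ : X → ℝ) (ε Λ t : ℝ) :
    Prop where
  met : Met g
  cc : CC ∞ v
  smb : ∀ j, Smooth (b j)
  smo : Smooth ϖ
  φ01 : ∀ x, φ x ∈ Icc (0 : ℝ) 1
  en : ∀ x, ∑ j, ip g (b j) (b j) x ≤ ε ^ 2 + φ x * Λ
  col : ∀ x, 0 ≤ ϖ x → ϖ x ≤ 1 → gn g ϖ x ≤ t
  zero : ∀ x, 0 < ϖ x → ∀ j, b j x = 0

/-- the output of a flat round: energy at most `e ^ 2`, displacement at most `η`, loss `L` -/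
structure FOut (g : Fld n X) (v : Fin n → X → ℝ) (b : J → X → ℝ) (ϖ : X → ℝ) (g' : Fld n X)
    (v' : Fin n → X → ℝ) (b' : J → X → ℝ) (e η : ℝ) (L : X → ℝ) : Prop where
  met : Met g'
  cc : CC ∞ v'
  smb : ∀ j, Smooth (b' j)
  up : Up g g'
  dn : ∀ f x, ip g' f f x ≤ ip g f f x
  off : ∀ x, 1 ≤ ϖ x → g' x = g x ∧ (∀ i, v' i x = v i x) ∧ ∀ j, b' j x = 0
  en : ∀ x, ∑ j, ip g' (b' j) (b' j) x ≤ e ^ 2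
  mv : ∀ x, ∑ j, (b' j x - b j x) ^ 2 ≤ η ^ 2
  cur : ∀ x, Rv g v x - L x ≤ Rv g' v' x

/-- one flat round -/
def FLAT1 (n : ℕ) : Prop := ∃ C > (0 : ℝ), ∀ ε > (0 : ℝ), ∀ η > (0 : ℝ), ∀ (m : ℕ) (Λ : ℝ),
  ∃ K : ℝ, ∀ (X : Type) [Mf0 n X] [CompactSpace X] (J : Type) [Fintype J] (g : Fld n X)
  (v : Fin n → X → ℝ) (b : J → X → ℝ) (φ ϖ : X → ℝ), Fintype.card J ≤ m →
  FIn g v b φ ϖ ε Λ (ε / (C * η)) → ∃ g' v' b',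
    FOut g v b ϖ g' v' b' (ε / 2) η fun x => C * ε ^ 2 / η ^ 2 + K * φ x

/-- the iterated flat rounds: the final energy bound `e` is arbitrary, the collar has to be long -/
def FLAT (n : ℕ) : Prop := ∃ C > (0 : ℝ), ∀ ε > (0 : ℝ), ∀ η > (0 : ℝ), ∀ e > (0 : ℝ),
  ∃ t > (0 : ℝ), ∀ (m : ℕ) (Λ : ℝ), ∃ K : ℝ, ∀ (X : Type) [Mf0 n X] [CompactSpace X] (J : Type)
  [Fintype J] (g : Fld n X) (v : Fin n → X → ℝ) (b : J → X → ℝ) (φ ϖ : X → ℝ),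
  Fintype.card J ≤ m → FIn g v b φ ϖ ε Λ t → ∃ g' v' b',
    FOut g v b ϖ g' v' b' e η fun x => C * ε ^ 2 / η ^ 2 + K * φ x

/-- decay of solutions of a stiff equation `hv w = Φ w` -/
def DEC (n : ℕ) : Prop := ∀ (X : Type) [Mf0 n X] (g : Fld n X) (v : Fin n → X → ℝ), Met g →
  CC ∞ v → ∀ (O T : Set X), IsOpen O → IsCompact T → T ⊆ O → ∀ (r : ℝ), ∀ δ > (0 : ℝ),
  ∃ A : ℝ, ∀ (w : X → ℝ) (Φ : ℝ → ℝ), Smooth w → ContDiff ℝ ∞ Φ → Φ 0 = 0 →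
  (∀ t, A ≤ deriv Φ t) → (∀ x ∈ O, |w x| ≤ r ∧ hv g v w x = Φ (w x)) →
  ∀ x ∈ T, |w x| ≤ δ ∧ ip g w w x ≤ δ ∧ |hv g v w x| ≤ 1

/-- cutting off a small tail -/
def TAIL (n : ℕ) : Prop := ∀ (X : Type) [Mf0 n X] (g : Fld n X) (v : Fin n → X → ℝ), Met g →
  CC ∞ v → ∀ (χ : X → ℝ) (T : Set X), Smooth χ → (∀ x, χ x ∈ Icc (0 : ℝ) 1) → IsCompact T →
  (∀ x ∉ T, (∀ᶠ y in 𝓝 x, χ y = 0) ∨ ∀ᶠ y in 𝓝 x, χ y = 1) → ∀ ε > (0 : ℝ), ∃ δ > (0 : ℝ),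
  ∀ w : X → ℝ, Smooth w → (∀ x ∈ T, |w x| ≤ δ ∧ ip g w w x ≤ δ ∧ |hv g v w x| ≤ 1) →
  ∃ v' : Fin n → X → ℝ, CC ∞ v' ∧ (∀ x, (∀ᶠ y in 𝓝 x, χ y = 0) → ∀ i, v' i x = v i x) ∧
    ∀ x, Rv g v x + χ x ^ 2 * (hv g v w x ^ 2 + 2 * Gr.dn g w (hv g v w) x) - ε ≤
      Rv (Y.C.gb g 1 fun y => χ y * w y) v' x

end Vale.Agent.P210F
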