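import Vale.Agent.P210F.Step
import Vale.Agent.P210T.TailK

/-!
# P210F: the flat round and its iteration
-/

open Filter Topology Set
open scoped ContDiff
open Vale.Agent.P366M Vale.Agent.P366M.Gr Vale.Agent.P366M.Y.C Vale.Agent.P210G Vale.Agent.P210U

noncomputable section

namespace Vale.Agent.P210F

namespace Al

variable {n : ℕ} {X : Type} [Mf0 n X] {J : Type} [Fintype J] {g g' g'' : Fld n X}
  {v v' v'' : Fin n → X → ℝ} {b b' b'' : J → X → ℝ} {φ ϖ : X → ℝ}

theorem ip_mul (c : ℝ) (f : X → ℝ) (x : X) :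
    ip g (fun y => c * f y) (fun y => c * f y) x = c ^ 2 * ip g f f x := by
  rw [ip_of_pd (pd_const_mul c) (pd_const_mul c), sq]

theorem mink {a b c : J → ℝ} {s t : ℝ} (hs : 0 < s) (ht : 0 < t) (h1 : ∑ j, (b j - a j) ^ 2 ≤ s ^ 2)
    (h2 : ∑ j, (c j - b j) ^ 2 ≤ t ^ 2) : ∑ j, (c j - a j) ^ 2 ≤ (s + t) ^ 2 := by
  have h3 := (Finset.sum_mul_sq_le_sq_mul_sq Finset.univ (fun j => b j - a j)
    fun j => c j - b j).trans (mul_le_mul h1 h2 (Finset.sum_nonneg fun _ _ => sq_nonneg _)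
      (sq_nonneg _))
  rw [← mul_pow] at h3
  have h4 := (abs_le_of_sq_le_sq' h3 (by positivity)).2
  have : ∑ j, (c j - a j) ^ 2 = ∑ j, (b j - a j) ^ 2 + 2 * ∑ j, (b j - a j) * (c j - b j) +
      ∑ j, (c j - b j) ^ 2 := by
    rw [Finset.mul_sum, ← Finset.sum_add_distrib, ← Finset.sum_add_distrib]
    exact Finset.sum_congr rfl fun _ _ => by ring
  nlinarith

theorem gn_aff (g : Fld n X) (ϖ : X → ℝ) (c : ℝ) (x : X) :
    gn g (fun y => 2 * ϖ y + c) x = 2 * gn g ϖ x := by
  rw [gn_of_pd (s := 2) (u' := ϖ) fun i => by rw [pd_add_const, pd_const_mul], abs_two]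

end Al

open Al

theorem flat1 {n : ℕ} (hn : 2 ≤ n) : FLAT1 n := by
  obtain ⟨S, S0, hS⟩ := st_bd
  have n0 : (0 : ℝ) < n := by exact_mod_cast (by omega : 0 < n)
  set c : ℝ := 128 * (2 + 2 * (4 * n)) with hc
  have c0 : 0 < c := by positivity
  refine ⟨2 * S + c ^ 2 / (24 * n) + 1, by positivity, fun ε ε0 η η0 m Λ => ?_⟩
  set N := 2 * √n / ε with hN
  have N0 : 0 < N := by positivity
  have N2 : N ^ 2 = 4 * n / ε ^ 2 := by rw [hN, div_pow, mul_pow, Real.sq_sqrt n0.le]; ring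
  set R := N ^ 2 * η ^ 2 with hR
  have R0 : 0 < R := by positivity
  set τ := c / R with hτ
  have τ0 : 0 < τ := by positivity
  have τR : τ * R = c := div_mul_cancel₀ _ R0.ne'
  set L := N ^ 2 * |Λ| with hL
  have L0 : 0 ≤ L := by positivity
  refine ⟨(2 * τ * L + m * (64 * L / R)) ^ 3 / (τ ^ 2 * R / 12) ^ 2, ?_⟩
  intro X _ _ J _ g v b φ ϖ hm F
  classical
  have en : ∀ x, ∑ i, ip g (fun y => N * b i y) (fun y => N * b i y) x ≤ 4 * n + L * φ x :=
    fun x => by
      simp only [ip_mul, ← Finset.mul_sum]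
      have h1 : φ x * Λ ≤ φ x * |Λ| := mul_le_mul_of_nonneg_left (le_abs_self Λ) (F.φ01 x).1
      have h2 : N ^ 2 * ε ^ 2 = 4 * n := by rw [N2]; field_simp
      calc _ ≤ N ^ 2 * (ε ^ 2 + φ x * |Λ|) := by gcongr; linarith [F.en x]
        _ = _ := by rw [mul_add, h2, hL]; ring
  have dσ : ∀ x, ip g (fun y => Real.smoothTransition (2 * ϖ y + 0))
      (fun y => Real.smoothTransition (2 * ϖ y + 0)) x ≤ τ / 128 := fun x => by
    have k := ((Real.smoothTransition.contDiff (n := 1)).differentiable one_ne_zero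
      (2 * ϖ x + 0)).hasDerivAt
    rw [← F.met.gn_sq, gn_comp (u := fun y => 2 * ϖ y + 0) k
      (((F.smo.diff x).const_mul 2).add_const 0), gn_aff]
    have h1 : (ε / η) ^ 2 ≤ τ / 128 := by
      have : τ / 128 = (2 + 2 * (4 * n)) / (4 * n) * (ε / η) ^ 2 := by
        rw [hτ, hc, hR, N2]; field_simp
      rw [this]
      exact le_mul_of_one_le_left (sq_nonneg _) ((one_le_div (by positivity)).2 (by linarith))
    refine le_trans ?_ h1
    have g0 := gn_nonneg g ϖ x
    gcongr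
    by_cases h : 2 * ϖ x + 0 ∈ Icc (0 : ℝ) 1
    · have h2 := F.col x (by linarith [h.1]) (by linarith [h.2])
      calc _ ≤ S * (2 * (ε / ((2 * S + c ^ 2 / (24 * n) + 1) * η))) := by
            gcongr; exact (hS _).1
        _ = 2 * S / (2 * S + c ^ 2 / (24 * n) + 1) * (ε / η) := by field_simp
        _ ≤ ε / η := mul_le_of_le_one_left (by positivity) ((div_le_one (by positivity)).2 (by
            have : 0 ≤ c ^ 2 / (24 * n) := by positivity
            linarith))
    · rw [(hS _).2 h, abs_zero, zero_mul]; positivity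
  have key : ∀ s : Finset J, ∃ g' v' u, Inv g v (fun j y => N * b j y) φ ϖ τ R L
      (ε ^ 2 / η ^ 2 / (m + 1)) (1 / (2 * (m + 1))) s g' v' u := fun s => by
    induction s using Finset.induction_on with
    | empty =>
      exact ⟨g, v, fun _ _ => 0, F.met, F.cc, fun _ => cd_const, by simp, fun _ _ => le_rfl,
        ⟨R, R0, by simp⟩, by simp, by simp [G_zero R0], by simp⟩
    | insert j s hj ih =>
      obtain ⟨g', v', u, I⟩ := ih
      exact step hn (P210T.decF n) (P210T.tailF n) F.met τ0 R0 (by positivity) L0 (by positivity)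
        (by positivity) τR.ge (fun i => CD.mul cd_const (F.smb i)) F.smo
        (Real.smoothTransition.contDiff.compM (CD.add (CD.mul cd_const F.smo) cd_const))
        (fun x => (F.φ01 x).1) en (fun x h i => by simp [F.zero x h i])
        (fun x => ⟨Real.smoothTransition.nonneg _, Real.smoothTransition.le_one _⟩)
        (fun x h => Real.smoothTransition.zero_of_nonpos (by linarith))
        (fun x h => Real.smoothTransition.one_of_one_le (by linarith)) dσ hj I
  obtain ⟨g', v', u, I⟩ := key Finset.univ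
  obtain ⟨μ, μ0, hμ⟩ := I.lt
  have hm' : ((Finset.univ : Finset J).card : ℝ) ≤ m + 1 := by
    exact_mod_cast (hm.trans (Nat.le_succ m))
  have l1 : (Finset.univ : Finset J).card * (ε ^ 2 / η ^ 2 / (m + 1)) ≤ ε ^ 2 / η ^ 2 := by
    rw [mul_comm, div_mul_eq_mul_div, div_le_iff₀ (by positivity)]
    gcongr
  refine ⟨g', v', fun j y => N⁻¹ * u j y, I.met, I.cc, fun j => CD.mul cd_const (I.sm j),
    fun x ξ => ?_, I.mo, fun x hx => ?_, fun x => ?_, fun x => ?_, fun x => ?_⟩
  · rw [quad_eq (I.eq x)]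
    exact le_add_of_nonneg_right (Finset.sum_nonneg fun _ _ => sq_nonneg _)
  · have : (Finset.univ : Finset J).card * (1 / (2 * (m + 1)) : ℝ) ≤ 1 / 2 := by
      rw [mul_one_div, div_le_iff₀ (by positivity)]; linarith
    obtain ⟨o1, o2, o3⟩ := I.off x (by linarith)
    exact ⟨o1, o2, fun j => by simp [o3 j (Finset.mem_univ j)]⟩
  · simp only [ip_mul, ← Finset.mul_sum]
    calc _ ≤ N⁻¹ ^ 2 * n := by gcongr; exact sum_ip_le F.met I.met (I.eq x)
      _ = _ := by rw [inv_pow, N2]; field_simp; ring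
  · have : ∀ j, (N⁻¹ * u j x - b j x) ^ 2 = N⁻¹ ^ 2 * (u j x - N * b j x) ^ 2 := fun j => by
      field_simp
    simp only [this, ← Finset.mul_sum]
    calc _ ≤ N⁻¹ ^ 2 * R := by gcongr; linarith [hμ x]
      _ = _ := by rw [hR]; field_simp
  · have e1 : τ ^ 2 * R / 6 = c ^ 2 / (24 * n) * ε ^ 2 / η ^ 2 := by
      rw [hτ, hR, N2]; field_simp; ring
    have e2 : (2 * S + c ^ 2 / (24 * n) + 1) * ε ^ 2 / η ^ 2 = 2 * (S * ε ^ 2 / η ^ 2) +
        c ^ 2 / (24 * n) * ε ^ 2 / η ^ 2 + ε ^ 2 / η ^ 2 := by ring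
    have e3 : 0 ≤ S * ε ^ 2 / η ^ 2 := by positivity
    rcases le_or_gt (ϖ x) 0 with h | h
    · have k1 := I.c1 x h
      have k2 := G_ge (k := (Finset.univ : Finset J).card) τ0 R0
        (Finset.sum_nonneg fun _ _ => sq_nonneg _) (lt_of_le_of_lt (hμ x) (by linarith)) L0
        (F.φ01 x).1 (F.φ01 x).2 (en x) hm (by rw [τR, hc]; linarith)
      linarith
    · have k1 := I.c2 x h
      have : 0 ≤ (2 * τ * L + m * (64 * L / R)) ^ 3 / (τ ^ 2 * R / 12) ^ 2 * φ x :=
        mul_nonneg (by positivity) (F.φ01 x).1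
      have : 0 ≤ τ ^ 2 * R / 6 := by positivity
      linarith

theorem flat {n : ℕ} (hn : 2 ≤ n) : FLAT n := by
  obtain ⟨C, C0, hC⟩ := flat1 hn
  have key : ∀ k : ℕ, ∀ ε > (0 : ℝ), ∀ η > (0 : ℝ), ∃ t > (0 : ℝ), ∀ (m : ℕ) (Λ : ℝ), ∃ K : ℝ,
      ∀ (X : Type) [Mf0 n X] [CompactSpace X] (J : Type) [Fintype J] (g : Fld n X)
      (v : Fin n → X → ℝ) (b : J → X → ℝ) (φ ϖ : X → ℝ), Fintype.card J ≤ m →
      FIn g v b φ ϖ ε Λ t → ∃ g' v' b', FOut g v b ϖ g' v' b' (ε * (1 / 2) ^ (k + 1)) η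
        fun x => 32 * C * ε ^ 2 / η ^ 2 + K * φ x := fun k => by
    induction k with
    | zero =>
      intro ε ε0 η η0
      refine ⟨ε / (C * η), by positivity, fun m Λ => ?_⟩
      obtain ⟨K, hK⟩ := hC ε ε0 η η0 m Λ
      refine ⟨K, fun X _ _ J _ g v b φ ϖ hm F => ?_⟩
      obtain ⟨g', v', b', O⟩ := hK X J g v b φ ϖ hm F
      refine ⟨g', v', b', { O with en := fun x => (O.en x).trans (le_of_eq (by ring))
                                   cur := fun x => le_trans ?_ (O.cur x) }⟩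
      have : 0 ≤ C * ε ^ 2 / η ^ 2 := by positivity
      have e : 32 * C * ε ^ 2 / η ^ 2 = 32 * (C * ε ^ 2 / η ^ 2) := by ring
      linarith
    | succ k ih =>
      intro ε ε0 η η0
      obtain ⟨t, t0, ht⟩ := ih (ε / 2) (by positivity) (3 * η / 4) (by positivity)
      refine ⟨min (ε / (C * (η / 4))) t / 2, by positivity, fun m Λ => ?_⟩
      obtain ⟨K, hK⟩ := hC ε ε0 (η / 4) (by positivity) m Λ
      obtain ⟨K', hK'⟩ := ht m 0
      refine ⟨K, fun X _ _ J _ g v b φ ϖ hm F => ?_⟩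
      have sm : ∀ c, Smooth fun y => 2 * ϖ y + c := fun c =>
        CD.add (CD.mul cd_const F.smo) cd_const
      obtain ⟨g', v', b', O⟩ := hK X J g v b φ (fun y => 2 * ϖ y + 0) hm
        { F with
          smo := sm 0
          col := fun x h0 h1 => by
            have := F.col x (by linarith) (by linarith)
            rw [gn_aff]; linarith [min_le_left (ε / (C * (η / 4))) t]
          zero := fun x h => F.zero x (by linarith) }
      obtain ⟨g'', v'', b'', O'⟩ := hK' X J g' v' b' (fun _ => 0) (fun y => 2 * ϖ y + -1) hm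
        { met := O.met
          cc := O.cc
          smb := O.smb
          smo := sm _
          φ01 := fun _ => ⟨le_rfl, zero_le_one⟩
          en := fun x => by simpa using O.en x
          col := fun x h0 h1 => by
            have := (Real.sqrt_le_sqrt (O.dn ϖ x)).trans (F.col x (by linarith) (by linarith))
            rw [gn_aff, gn]; linarith [min_le_right (ε / (C * (η / 4))) t]
          zero := fun x h => (O.off x (by linarith)).2.2 }
      refine ⟨g'', v'', b'', O'.met, O'.cc, O'.smb, fun x ξ => (O.up x ξ).trans (O'.up x ξ),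
        fun f x => (O'.dn f x).trans (O.dn f x), fun x h => ?_,
        fun x => (O'.en x).trans (le_of_eq (by ring)),
        fun x => (mink (by positivity) (by positivity) (O.mv x) (O'.mv x)).trans
          (le_of_eq (by ring)), fun x => ?_⟩
      · obtain ⟨a1, a2, -⟩ := O.off x (by linarith)
        obtain ⟨a3, a4, a5⟩ := O'.off x (by linarith)
        exact ⟨a3.trans a1, fun i => (a4 i).trans (a2 i), a5⟩
      · have a1 := O.cur x
        have a2 := O'.cur x
        have : 0 ≤ C * ε ^ 2 / η ^ 2 := by positivity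
        have e1 : 32 * C * ε ^ 2 / η ^ 2 = 32 * (C * ε ^ 2 / η ^ 2) := by ring
        have e2 : C * ε ^ 2 / (η / 4) ^ 2 = 16 * (C * ε ^ 2 / η ^ 2) := by field_simp; ring
        have e3 : 32 * C * (ε / 2) ^ 2 / (3 * η / 4) ^ 2 = 128 / 9 * (C * ε ^ 2 / η ^ 2) := by
          field_simp; ring
        linarith
  refine ⟨32 * C, by positivity, fun ε ε0 η η0 e e0 => ?_⟩
  obtain ⟨k, hk⟩ := exists_pow_lt_of_lt_one (div_pos e0 ε0) (by norm_num : (1 / 2 : ℝ) < 1)
  obtain ⟨t, t0, ht⟩ := key k ε ε0 η η0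
  refine ⟨t, t0, fun m Λ => ?_⟩
  obtain ⟨K, hK⟩ := ht m Λ
  refine ⟨K, fun X _ _ J _ g v b φ ϖ hm F => ?_⟩
  obtain ⟨g', v', b', O⟩ := hK X J g v b φ ϖ hm F
  refine ⟨g', v', b', { O with en := fun x => (O.en x).trans ?_ }⟩
  rw [lt_div_iff₀ ε0] at hk
  have : 0 < (1 / 2 : ℝ) ^ k * ε := by positivity
  gcongr
  rw [pow_succ]
  linarith

end Vale.Agent.P210F
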