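import Vale.Agent.P210R.Sta
import Vale.Agent.P210D.Sw
import Vale.Agent.P210V.MixR

/-!
# P210F: the summed inequality of a sweep in the inner region
-/

open Filter Topology Set Finset
open scoped ContDiff
open Vale.Agent.P366M Vale.Agent.P366M.Gr Vale.Agent.P366M.Y.C Vale.Agent.P210G Vale.Agent.P210R
open Vale.Agent.P210U (Up)

noncomputable section

namespace Vale.Agent.P210F

namespace In

/-- the real inequality of one step -/
theorem one {R R' h u t W β f N K ε a δ s η V Z y z θ : ℝ} (u0 : 0 < u) (u1 : u ≤ 1)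
    (W0 : 0 ≤ W) (a0 : 0 ≤ a) (a1 : a ≤ 1) (δ0 : 0 ≤ δ) (β0 : 0 ≤ β) (ε0 : 0 ≤ ε)
    (hy : y * t = 1 - u) (hz : z * t = s * K + ε) (hV : W * K = V * K)
    (hε : W * ε ≤ η) (hZ : Z ≤ 1 - u ^ 2)
    (H : R + h + (-((1 - a) * y) + W * t + β * (t - z)) ^ 2 + 2 * (1 - a) * a * y ^ 2 +
      2 * (W + β) * ((1 - u ^ 2) / u) - 2 * β * (s * f) + 2 * t * N ≤ R') :
    R + (h + ((1 - a) * y + (1 - δ) * (W * t) - β * (t - z)) ^ 2 +
      (2 * δ - δ ^ 2 - θ) * (W * t) ^ 2 + a * (W * Z) + 2 * (1 - a) * a * y ^ 2 +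
      2 * β * (1 - u ^ 2) + (2 - δ) * (2 * β) * (W * t ^ 2) -
      (-(2 * t * N) - a * (W * (1 - u ^ 2)) - θ * (W * t) ^ 2) - 4 * β * η -
      2 * β * s * f - 2 * β * s * (2 - δ) * (V * K)) ≤ R' := by
  obtain ⟨μ, hμ⟩ : ∃ μ, μ = (1 - u ^ 2) / u := ⟨_, rfl⟩
  have σ0 : 0 ≤ 1 - u ^ 2 := by nlinarith
  have m1 : 1 - u ^ 2 ≤ μ := hμ ▸ (le_div_iff₀ u0).2 (mul_le_of_le_one_right σ0 u1)
  have m2 : 2 * (1 - u) ≤ μ := hμ ▸ (le_div_iff₀ u0).2 (by nlinarith [sq_nonneg (1 - u)])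
  rw [← hμ] at H
  have e : (-((1 - a) * y) + W * t + β * (t - z)) ^ 2 =
      ((1 - a) * y + (1 - δ) * (W * t) - β * (t - z)) ^ 2 + (2 * δ - δ ^ 2) * (W * t) ^ 2 -
        2 * (2 - δ) * ((1 - a) * ((1 - u) * W) - β * (W * t ^ 2) + β * (s * (V * K) + W * ε)) := by
    rw [← hy, ← hV, show s * (W * K) + W * ε = W * (z * t) by rw [hz]; ring]
    ring
  rw [e] at H
  have b1 := mul_le_mul_of_nonneg_left m1 β0
  have b2 := mul_le_mul_of_nonneg_left (mul_le_mul_of_nonneg_left m1 W0) a0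
  have b3 := mul_le_mul_of_nonneg_left (mul_le_mul_of_nonneg_left m2 W0) (sub_nonneg.2 a1)
  have b4 := mul_nonneg δ0 (mul_nonneg (sub_nonneg.2 a1) (mul_nonneg (sub_nonneg.2 u1) W0))
  have b5 := mul_le_mul_of_nonneg_left (mul_le_mul_of_nonneg_left hZ W0) a0
  have b6 := mul_le_mul_of_nonneg_left hε β0
  have b7 := mul_nonneg δ0 (mul_nonneg β0 (mul_nonneg W0 ε0))
  linarith

/-- the two bounds for the cost of the gradient of the potential -/
theorem two {t N W σ θ Λ a l : ℝ} (W0 : 0 ≤ W) (σ0 : 0 ≤ σ) (θ0 : 0 ≤ θ) (Λ0 : 0 ≤ Λ) (a0 : 0 < a)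
    (l0 : 0 ≤ l) (hl : Λ ≤ l ^ 2) (h : N ^ 2 ≤ σ * (W * (θ * W ^ 2 + Λ))) :
    -(2 * t * N) - a * (W * σ) - 2 * θ / a * (W * t) ^ 2 ≤ 2 * Λ / a * t ^ 2 ∧
      -(2 * t * N) - a * (W * σ) - 2 * θ / a * (W * t) ^ 2 ≤ l * (σ + W * t ^ 2) := by
  obtain ⟨c, hc⟩ : ∃ c, c = a⁻¹ := ⟨_, rfl⟩
  have c0 : 0 < c := hc ▸ inv_pos.2 a0
  have c1 : a * c = 1 := hc ▸ mul_inv_cancel₀ a0.ne'
  simp only [div_eq_mul_inv, ← hc]
  have h1 : (2 * t * N) ^ 2 ≤ 4 * (W * σ * (θ * (W * t) ^ 2)) + 4 * (Λ * (σ * (W * t ^ 2))) := by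
    nlinarith [mul_le_mul_of_nonneg_left h (sq_nonneg t)]
  have p0 : 0 ≤ W * σ := mul_nonneg W0 σ0
  have p1 : 0 ≤ θ * (W * t) ^ 2 := by positivity
  have p2 : 0 ≤ Λ * t ^ 2 := by positivity
  have p3 : 0 ≤ W * t ^ 2 := by positivity
  have k : ∀ X ≥ (0 : ℝ), 4 * (W * σ * X) ≤ (a * (W * σ) + 2 * c * X) ^ 2 := fun X X0 => by
    have : 8 * (W * σ * X) = 8 * (a * (W * σ) * (c * X)) := by
      rw [show a * (W * σ) * (c * X) = a * c * (W * σ * X) by ring, c1, one_mul]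
    nlinarith [sq_nonneg (a * (W * σ) - 2 * c * X), mul_nonneg p0 X0]
  constructor
  · have := (abs_le_of_sq_le_sq' (a := 2 * t * N) (b := a * (W * σ) + 2 * c * (θ * (W * t) ^ 2 +
      Λ * t ^ 2)) (h1.trans (le_trans (le_of_eq (by ring)) (k _ (add_nonneg p1 p2))))
      (by positivity)).1
    linarith
  · have q : 4 * (Λ * (σ * (W * t ^ 2))) ≤ (l * (σ + W * t ^ 2)) ^ 2 := by
      have := mul_le_mul_of_nonneg_right hl (mul_nonneg σ0 p3)
      nlinarith [mul_nonneg (sq_nonneg l) (sq_nonneg (σ - W * t ^ 2))]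
    have q1 : 0 ≤ a * (W * σ) + 2 * c * (θ * (W * t) ^ 2) := by positivity
    have q2 : 0 ≤ l * (σ + W * t ^ 2) := by positivity
    have := (abs_le_of_sq_le_sq' (a := 2 * t * N) (b := a * (W * σ) + 2 * c * (θ * (W * t) ^ 2) +
      l * (σ + W * t ^ 2)) (by nlinarith [k _ p1, mul_nonneg q1 q2]) (by positivity)).1
    linarith

theorem cs {m : ℕ} (f t : ℕ → ℝ) {r₀ : ℝ} (r0 : 0 ≤ r₀) : (∑ j ∈ range m, f j * t j) ^ 2 ≤
    (∑ j ∈ range m, f j ^ 2) * (r₀ + ∑ j ∈ range m, t j ^ 2) :=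
  (sum_mul_sq_le_sq_mul_sq _ _ _).trans (mul_le_mul_of_nonneg_left (le_add_of_nonneg_left r0)
    (sum_nonneg fun _ _ => sq_nonneg _))

variable {n : ℕ} {X : Type} [Mf0 n X] {g₀ g : Fld n X} {ϱ Λ : X → ℝ} {U : ℕ → Set X}
  {V K W t κ : ℕ → X → ℝ} {m : ℕ} {θ a α s η d : ℝ} {h' ε : ℕ → ℝ} {vs : ℕ → Fin n → X → ℝ}
  {x : X} (S : Swp g₀ ϱ Λ U V K m θ a α s η d g h' ε W t κ vs)
include S

theorem cc_vs : ∀ j ≤ m, CC ∞ (vs j)
  | 0, _ => S.cc
  | j + 1, h => (S.pst j h).cc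

theorem ev3 (hx : ϱ x < 3) : ∀ᶠ y in 𝓝 x, ϱ y < 3 :=
  (S.smr.cont.tendsto x).eventually (gt_mem_nhds hx)

/-- the gains of the steps add up -/
theorem sum_in (hx : ϱ x < 3) {b : ℕ → ℝ} (H : ∀ j < m, Rv (gs g t j) (vs j) x + b j ≤
    Rv (gb (gs g t j) 1 (t j)) (vg (gs g t j) (vs j) (t j)) x) : ∀ k ≤ m,
    Rv g (vs 0) x + ∑ j ∈ range k, b j ≤ Rv (gs g t k) (vs k) x
  | 0, _ => by simp [gs]
  | k + 1, h => by
    rw [sum_range_succ, gs, Rv_congr fun i => (ev3 S hx).mono fun y q => ((S.pst k h).ex y q).1 i]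
    linarith [sum_in hx H k (by omega), H k h]

/-- the divergence of the normals is the mean curvature -/
theorem Dv_nv (hx : ϱ x < 3) {j k : ℕ} (hj : j ≤ k) (hk : k ≤ m) :
    Dv (gs g t k) (vs k) (nv (gs g t j) (t j)) x = hv (gs g t j) (vs j) (t j) x := by
  induction k, hj using Nat.le_induction with
  | base => rfl
  | succ k _ ih =>
    rw [← ih (by omega), ← Dv_g (P210D.met_gs S.met S.smt k) (S.smt k)
      ((cv_nv (P210D.met_gs S.met S.smt j) (S.smt j)).dv (by simp) x)]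
    simp only [Dv, ev, ((S.pst k hk).ex x hx).1, gs]

theorem ip_gs {j k : ℕ} (h : j ≤ k) (f : X → ℝ) (x : X) :
    ip (gs g t k) f f x ≤ ip (gs g t j) f f x := by
  simpa only [iv_df] using P210D.iv_le S.met S.smt h (df f) x

theorem ip_t {j k : ℕ} (h : j < k) (x : X) :
    ip (gs g t k) (t j) (t j) x ≤ 1 - uu (gs g t j) (t j) x ^ 2 :=
  (ip_gs S h _ x).trans_eq (P210D.ip_g_self (P210D.met_gs S.met S.smt j) _ x)

theorem yy_t (j : ℕ) (x : X) : yy (gs g t j) (t j) x * t j x = 1 - uu (gs g t j) (t j) x :=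
  div_mul_cancel₀ _ (S.t0 j x).ne'

end In

open In in
/-- **INNER** -/
theorem inner (hS : STEP) : INNER := by
  intro n X _ g₀ ϱ Λ U V K m θ a α s η d g h' ε W t κ vs δ r₀ x S a0 a1 δ0 δ1 α0 s0 θ0 r0 Λ0 hΛ hx
    r S' A₀ Xs b Y hr hS' hA hX hb hY
  have h3 : ϱ x < 3 := by linarith
  have mt := P210D.met_gs S.met S.smt
  obtain ⟨β, hβ⟩ : ∃ β, β = α / (2 * s) := ⟨_, rfl⟩
  have β0 : 0 < β := hβ ▸ by positivity
  have e0 : α = 2 * β * s := by rw [hβ]; field_simp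
  obtain ⟨p, hp⟩ : ∃ p : ℕ → ℝ, ∀ j, p j = (1 - a) * yy (gs g t j) (t j) x +
    (1 - δ) * (W j x * t j x) - β * (t j x - (s * K j x + ε j) / t j x) := ⟨_, fun _ => rfl⟩
  obtain ⟨D, hD⟩ : ∃ D : ℕ → ℝ, ∀ j, D j = -(2 * t j x * dn (gs g t j) (t j) (W j) x) -
    a * (W j x * (1 - uu (gs g t j) (t j) x ^ 2)) - 2 * θ / a * (W j x * t j x) ^ 2 :=
    ⟨_, fun _ => rfl⟩
  have hH : ∀ j < m, hv (gs g t j) (vs j) (t j) x = -((1 - a) * yy (gs g t j) (t j) x) +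
      W j x * t j x + β * (t j x - (s * K j x + ε j) / t j x) := fun j hj => by
    rw [((S.pst j hj).ex x h3).2, Hf, (S.pst j hj).kz x hx, P210R.yy, hβ]
    ring
  have hd : ∀ j < m, D j ≤ 2 * Λ x / a * t j x ^ 2 ∧
      D j ≤ α / (4 * s) * ((1 - uu (gs g t j) (t j) x ^ 2) + W j x * t j x ^ 2) := fun j hj => by
    rw [hD]
    refine two (S.W0 j x) (P210D.sg_nn S.met S.smt j x) θ0 Λ0 a0 (by positivity) ?_
      ((P210D.dn_sq S.met S.smt j _ x).trans (mul_le_mul_of_nonneg_left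
        ((P210V.ip_anti S.up S.m0 S.met _ x).trans ((S.pst j hj).gW x))
        (P210D.sg_nn S.met S.smt j x)))
    rw [div_pow, le_div_iff₀ (by positivity)]
    linarith
  have e1 : A₀ = ∑ j ∈ range m, yy (gs g t j) (t j) x * t j x := by
    simp only [hA, aa, yy_t S]
  have e2 : Xs = ∑ j ∈ range m, W j x * t j x * t j x := by
    simp only [hX, sq, mul_assoc]
  refine ⟨hS' ▸ sum_le_sum fun j hj => ip_t S (mem_range.1 hj) x,
    hS' ▸ hA ▸ P210D.aa_le_th S.met S.smt m x, hS' ▸ hA ▸ P210D.th_le_aa S.met S.smt m x,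
    e2 ▸ hb ▸ hr ▸ cs _ _ r0, e1 ▸ hY ▸ hr ▸ cs _ _ r0,
    sum_nonneg fun j _ => P210D.hq_nn (mt j) (S.smt j) _ x, ∑ j ∈ range m, p j ^ 2,
    ∑ j ∈ range m, D j, sum_nonneg fun _ _ => sq_nonneg _, fun q => ?_, ?_, ?_, ?_, ?_⟩
  · refine (pow_le_pow_left₀ q ?_ 2).trans (by rw [hr]; exact cs p (fun j => t j x) r0)
    have e3 : ∀ j ∈ range m, (1 - a) * (yy (gs g t j) (t j) x * t j x) +
        (1 - δ) * (W j x * t j x * t j x) - β * t j x ^ 2 + β * s * K j x ≤ p j * t j x :=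
      fun j hj => by
        have := div_mul_cancel₀ (s * K j x + ε j) (S.t0 j x).ne'
        have := mul_pos β0 (S.pst j (mem_range.1 hj)).e0
        rw [hp]
        nlinarith
    have e4 := sum_le_sum e3
    simp only [sum_add_distrib, sum_sub_distrib, ← mul_sum, S.dis.one, ← e1, ← e2] at e4
    rw [show α * (s - r) / (2 * s) = β * (s - r) by rw [hβ]; ring, hr, rr]
    nlinarith [mul_nonneg β0.le r0]
  · refine (sum_le_sum fun j hj => (hd j (mem_range.1 hj)).1).trans ?_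
    rw [← mul_sum, hr]
    exact mul_le_mul_of_nonneg_left (le_add_of_nonneg_left r0) (by positivity)
  · refine (sum_le_sum fun j hj => (hd j (mem_range.1 hj)).2).trans_eq ?_
    rw [← mul_sum, sum_add_distrib, hS', hX]
  · rw [hb, mul_sum, mul_sum, ← sum_add_distrib]
    refine sum_le_sum fun j hj => ?_
    have hj := mem_range.1 hj
    rw [Dv_nv S h3 hj.le le_rfl, show hv (gs g t j) (vs j) (t j) x =
      -p j + (2 - δ) * (W j x * t j x) by rw [hH j hj, hp]; ring]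
    nlinarith [sq_nonneg (p j + (2 - δ) * (W j x * t j x)), mul_nonneg (mul_nonneg δ0.le
      (by linarith : 0 ≤ 4 - δ)) (sq_nonneg (W j x * t j x))]
  · have k := sum_in S h3 (fun j hj => by
      have P := S.pst j hj
      have K0 := S.dis.nn j
      have f0 : 0 ≤ fi g (K j) x := P210V.fi_nonneg S.met (K0 x)
      have k := (hS n X _ _ _ _ _ _ _ _ (s * fi g (K j) x) x (mt j) (cc_vs S j hj.le) (S.smt j)
        (S.smW j) (CD.add (CD.mul cd_const (S.dis.sm j)) cd_const) P.smκ (S.t0 j)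
        (add_nonneg (mul_nonneg s0.le (K0 x)) P.e0.le) (add_nonneg (by positivity) (P.k0 x))
        (sub_nonneg.2 a1) (by linarith) (by positivity) (by
          have e : ∀ i, pd i (fun y => s * K j y + ε j) x = s * pd i (K j) x := fun i => by
            rw [pd_add_const, pd_const_mul]
          have k1 := mul_le_mul_of_nonneg_left ((ip_gs S j.zero_le (K j) x).trans
            (P210V.ip_le_fi K0)) (mul_self_nonneg s)
          have k2 := mul_nonneg P.e0.le (mul_nonneg s0.le f0)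
          rw [ip_of_pd e e]
          simp only [gs] at k1
          linarith) ((ev3 S h3).mono fun y q => (P.ex y q).2)).2
      rw [hH j hj, show dn (gs g t j) (t j) (κ j) x = 0 by
        rw [dn, P210V.ip_zero' P.k0 (P.kz x hx), zero_div], P.kz x hx, ← hβ] at k
      exact one (δ := δ) (θ := 2 * θ / a) (f := fi g (K j) x) (N := dn (gs g t j) (t j) (W j) x)
        (h := hq (1 - a) (gs g t j) (t j) x) (V := V j x) (K := K j x) (s := s)
        (P210D.uu_pos (mt j) _ x) (P210D.uu_le (mt j) _ x) (S.W0 j x) a0.le a1 δ0.le β0.le P.e0.le (yy_t S j x)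
        (div_mul_cancel₀ _ (S.t0 j x).ne') ((eq_or_ne (K j x) 0).elim (fun q => by simp [q])
          fun q => by rw [P.old x q]) (P.e2 x) (ip_t S hj x) (by linarith)) m le_rfl
    simp only [← hp, ← hD] at k
    simp only [sum_add_distrib (ι := ℕ), sum_sub_distrib (ι := ℕ), ← mul_sum, ← hb, ← hY, ← hX,
      sum_const, card_range, nsmul_eq_mul] at k
    rw [SS, En, hS', show α / s = 2 * β by rw [hβ]; ring, show (2 - δ) * α * Xs / s =
      (2 - δ) * (2 * β) * Xs by rw [hβ]; ring, show 2 * m * α * η / s = m * (4 * β * η) by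
        rw [hβ]; ring, e0]
    simp only [sum_sub_distrib (ι := ℕ), sum_const, card_range, nsmul_eq_mul]
    linarith

end Vale.Agent.P210F
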