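import Vale.Agent.P210F.Ex

/-!
# P210F: one step of the sweep
-/

open Filter Topology Set
open scoped ContDiff
open Vale.Agent.P366M Vale.Agent.P366M.Gr Vale.Agent.P366M.Y.C Vale.Agent.P210G Vale.Agent.P210U
open Vale.Agent.P210C

noncomputable section

namespace Vale.Agent.P210F.Al

variable {n : ℕ} {X : Type} [Mf0 n X] {g g' : Fld n X} {v v' : Fin n → X → ℝ} {x : X}
  {J : Type} {s : Finset J} {u β : J → X → ℝ} {w f h A : X → ℝ}

theorem dn_add (hf : DAt f x) (hh : DAt h x) :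
    dn g w (fun y => f y + h y) x = dn g w f x + dn g w h x := by
  rw [dn_lin (s := 1) (t := 1) (w := f) (ζ := h) fun i => by rw [pd_add hf hh]; ring]; ring

theorem dn_sub (hf : DAt f x) (hh : DAt h x) :
    dn g w (fun y => f y - h y) x = dn g w f x - dn g w h x := by
  rw [dn_lin (s := 1) (t := -1) (w := f) (ζ := h) fun i => by rw [pd_sub hf hh]; ring]; ring

theorem dn_pow2 (hf : DAt f x) : dn g w (fun y => f y ^ 2) x = 2 * f x * dn g w f x := by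
  rw [dn_comp (χ := fun t => t ^ 2) (hasDerivAt_pow 2 (f x)) hf]; simp

theorem dn_sum (hg : Met g) {F : J → X → ℝ} (hF : ∀ k ∈ s, DAt (F k) x) :
    dn g w (fun y => ∑ k ∈ s, F k y) x = ∑ k ∈ s, dn g w (F k) x := by
  simp only [dn_eq hg, pd_sum s hF, Finset.sum_mul]
  exact Finset.sum_comm

/-- the gain at a point -/
theorem gain_pt [Fintype J] [DecidableEq J] (hg : Met g) (hg' : Met g') {τ R p q : ℝ} {j : J}
    (hj : j ∉ s) (hτ : 0 < τ) (hR : 0 < R) (hp : 0 ≤ p) (hq : 0 ≤ q)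
    (hc : 128 * (2 + 2 * p) ≤ τ * R) (hu : ∀ i, Smooth (u i)) (hβ : ∀ i, Smooth (β i))
    (hw : Smooth w) (hA : Smooth A) (A0 : 0 ≤ A x)
    (e : ∀ i k, g' x i k = g x i k + ∑ j ∈ s, pd i (u j) x * pd k (u j) x)
    (mo : ∀ f, ip g' f f x ≤ ip g f f x) (en : ∑ i, ip g (β i) (β i) x ≤ p + q)
    (lt : ∑ i ∈ s, (u i x - β i x) ^ 2 + (w x - β j x) ^ 2 < R)
    (hAβ : A x = 0 ∨ ip g (β j) (β j) x = 0) (dA : ip g A A x ≤ (τ + A x) ^ 3 / 32)
    {H : X → ℝ} (hH : H = fun y => (τ * xf R (∑ i ∈ s, (u i y - β i y) ^ 2 + (w y - β j y) ^ 2) ^ 2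
      + A y) * (w y - β j y)) :
    (τ * xf R (∑ i ∈ s, (u i x - β i x) ^ 2 + (w x - β j x) ^ 2) ^ 2) ^ 2 * (w x - β j x) ^ 2 / 2 -
      2 * (τ * xf R (∑ i ∈ s, (u i x - β i x) ^ 2 + (w x - β j x) ^ 2) ^ 2) * ip g (β j) (β j) x -
      64 * xf R (∑ i ∈ s, (u i x - β i x) ^ 2 + (w x - β j x) ^ 2) ^ 2 * q / R ≤
      H x ^ 2 + 2 * dn g' w H x := by
  have dZ : DAt (fun y => w y - β j y) x := (hw.diff x).sub ((hβ j).diff x)
  have dZi : ∀ i, DAt (fun y => u i y - β i y) x := fun i => ((hu i).diff x).sub ((hβ i).diff x)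
  have d0 : DAt (fun y => ∑ i ∈ s, (u i y - β i y) ^ 2) x := DAt.fun_sum fun i _ => (dZi i).pow 2
  have dρ := d0.add (dZ.pow 2)
  have dx := xf_der τ hR lt
  have dτ : DAt (fun y => τ * xf R (∑ i ∈ s, (u i y - β i y) ^ 2 + (w y - β j y) ^ 2) ^ 2) x :=
    DifferentiableAt.comp (g := fun t => τ * xf R t ^ 2) (pt x)
      (by simpa only [loc, symm_pt] using dx.differentiableAt) dρ
  have r0 : 0 ≤ ∑ i ∈ s, (u i x - β i x) ^ 2 := Finset.sum_nonneg fun _ _ => sq_nonneg _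
  have ρ0 := add_nonneg r0 (sq_nonneg (w x - β j x))
  have σ0 := sg_nonneg hg' w x
  have b1 : ∀ f, dn g' w f x ^ 2 ≤ ip g f f x * sg g' w x := fun f =>
    (dn_sq hg' w f x).trans (mul_le_mul_of_nonneg_right (mo f) σ0)
  have x1 := xf_ge ρ0 lt
  have key := gain (Z := w x - β j x) (D := dn g' w w x) (β := dn g' w (β j) x)
    (P := ∑ i ∈ s, (u i x - β i x) * dn g' w (u i) x)
    (Q := ∑ i ∈ s, (u i x - β i x) * dn g' w (β i) x + (w x - β j x) * dn g' w (β j) x)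
    (a := dn g' w A x) hτ hR x1 ρ0 lt.le A0 σ0 (sg_le hg' w x) (sg_le_dn hg' w x)
    (hg.ip_nonneg (β j) x) (b1 _)
    (hAβ.elim (fun h => by rw [h, zero_mul]) fun h => by
      have := b1 (β j)
      rw [h, zero_mul] at this
      rw [pow_eq_zero_iff two_ne_zero |>.1 (le_antisymm this (sq_nonneg _)), mul_zero])
    ((Finset.sum_mul_sq_le_sq_mul_sq s _ _).trans (mul_le_mul
      (by linarith [sq_nonneg (w x - β j x)]) (sum_dn_le hg hg' e w)
      (Finset.sum_nonneg fun _ _ => sq_nonneg _) ρ0)) hp hq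
    ((cs2 r0 (Finset.sum_nonneg fun _ _ => sq_nonneg _)
      (Finset.sum_mul_sq_le_sq_mul_sq s _ _)).trans (mul_le_mul_of_nonneg_left (by
        rw [add_comm, ← Finset.sum_insert (f := fun i => dn g' w (β i) x ^ 2) hj]
        refine (Finset.sum_le_univ_sum_of_nonneg fun _ => sq_nonneg _).trans
          ((Finset.sum_le_sum fun i _ => b1 (β i)).trans ?_)
        rw [← Finset.sum_mul]
        exact mul_le_mul_of_nonneg_right en σ0) ρ0))
    ((b1 A).trans (by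
      have : (τ + A x) ^ 3 ≤ (τ * xf R (∑ i ∈ s, (u i x - β i x) ^ 2 + (w x - β j x) ^ 2) ^ 2 +
          A x) ^ 3 := by
        gcongr
        nlinarith [one_le_pow₀ x1 (n := 2)]
      nlinarith)) hc
  refine key.trans (le_of_eq ?_)
  rw [hH, dn_mul (dτ.add (hA.diff x)) dZ, dn_add dτ (hA.diff x),
    dn_comp (v := fun y => ∑ i ∈ s, (u i y - β i y) ^ 2 + (w y - β j y) ^ 2) dx dρ,
    dn_add d0 (dZ.pow 2), dn_sum hg' fun i _ => (dZi i).pow 2, dn_pow2 dZ,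
    dn_sub (hw.diff x) ((hβ j).diff x)]
  have k : ∑ i ∈ s, dn g' w (fun y => (u i y - β i y) ^ 2) x =
      2 * ∑ i ∈ s, (u i x - β i x) * dn g' w (u i) x -
        2 * ∑ i ∈ s, (u i x - β i x) * dn g' w (β i) x := by
    rw [Finset.mul_sum, Finset.mul_sum, ← Finset.sum_sub_distrib]
    refine Finset.sum_congr rfl fun i _ => ?_
    rw [dn_pow2 (dZi i), dn_sub ((hu i).diff x) ((hβ i).diff x)]
    ring
  rw [k]
  beta_reduce
  ring

/-- the spring -/
theorem spring (hg : Met g) {τ : ℝ} (hτ : 0 < τ) {σ : X → ℝ} (hσ : Smooth σ)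
    (σ01 : ∀ x, σ x ∈ Icc (0 : ℝ) 1) (dσ : ∀ x, ip g σ σ x ≤ τ / 128) (A₀ : ℝ) :
    ∃ (A : X → ℝ) (A₁ : ℝ), Smooth A ∧ A₀ ≤ A₁ ∧ ∀ x, 0 ≤ A x ∧ (σ x = 0 → A x = 0) ∧
      (σ x = 1 → A x = A₁) ∧ ip g A A x ≤ (τ + A x) ^ 3 / 32 := by
  set d := τ / (τ + |A₀|) with hd
  have d0 : 0 < d := by positivity
  have d1 : d ≤ 1 := (div_le_one (by positivity)).2 (by linarith [abs_nonneg A₀])
  have p0 : ∀ x, 0 < 1 - (1 - d) * σ x := fun x => by nlinarith [(σ01 x).1, (σ01 x).2]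
  have p1 : ∀ x, 1 - (1 - d) * σ x ≤ 1 := fun x => by nlinarith [(σ01 x).1]
  refine ⟨fun x => τ * ((1 - (1 - d) * σ x)⁻¹ ^ 2 - 1), τ * (d⁻¹ ^ 2 - 1), CD.mul cd_const
    (CD.sub ((CD.inv (CD.sub cd_const (CD.mul cd_const hσ)) fun x => (p0 x).ne').pow 2) cd_const),
    ?_, fun x => ⟨?_, fun h => by simp [h], fun h => by simp [h], ?_⟩⟩
  · have a1 : 1 ≤ d⁻¹ := (one_le_inv₀ d0).2 d1
    have a2 : τ * (d⁻¹ - 1) = |A₀| := by rw [hd]; field_simp; ring
    nlinarith [le_abs_self A₀, mul_nonneg hτ.le (mul_nonneg (sub_nonneg.2 a1) (inv_pos.2 d0).le)]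
  · have := (one_le_inv₀ (p0 x)).2 (p1 x)
    exact mul_nonneg hτ.le (by nlinarith)
  · have k : HasDerivAt (fun t => τ * ((1 - (1 - d) * t)⁻¹ ^ 2 - 1))
        (2 * τ * (1 - d) * (1 - (1 - d) * σ x)⁻¹ ^ 3) (σ x) := by
      have := ((((((hasDerivAt_id (σ x)).const_mul (1 - d)).const_sub 1).inv
        (p0 x).ne').fun_pow 2).sub_const 1).const_mul τ
      refine this.congr_deriv ?_
      have := (p0 x).ne'
      simp only [id, Pi.inv_apply, Nat.add_one_sub_one, pow_one, neg_neg, Nat.cast_ofNat]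
      field_simp
    rw [ip_comp k k (hσ.diff x) (hσ.diff x)]
    have a0 := inv_pos.2 (p0 x)
    beta_reduce
    generalize (1 - (1 - d) * σ x)⁻¹ = y at *
    have a1 : (1 - d) ^ 2 * ip g σ σ x ≤ 1 * (τ / 128) :=
      mul_le_mul (by nlinarith) (dσ x) (hg.ip_nonneg σ x) zero_le_one
    calc _ = 4 * τ ^ 2 * y ^ 6 * ((1 - d) ^ 2 * ip g σ σ x) := by ring
      _ ≤ 4 * τ ^ 2 * y ^ 6 * (1 * (τ / 128)) := by gcongr
      _ = _ := by ring

/-- the invariant of the sweep -/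
structure Inv (g : Fld n X) (v : Fin n → X → ℝ) (β : J → X → ℝ) (φ ϖ : X → ℝ) (τ R L e d : ℝ)
    (s : Finset J) (g' : Fld n X) (v' : Fin n → X → ℝ) (u : J → X → ℝ) : Prop where
  met : Met g'
  cc : CC ∞ v'
  sm : ∀ j, Smooth (u j)
  eq : ∀ x i k, g' x i k = g x i k + ∑ j ∈ s, pd i (u j) x * pd k (u j) x
  mo : ∀ f x, ip g' f f x ≤ ip g f f x
  lt : ∃ μ > (0 : ℝ), ∀ x, ∑ j ∈ s, (u j x - β j x) ^ 2 ≤ R - μ
  off : ∀ x, 1 / 2 + s.card * d ≤ ϖ x → g' x = g x ∧ (∀ i, v' i x = v i x) ∧ ∀ j ∈ s, u j x = 0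
  c1 : ∀ x, ϖ x ≤ 0 → Rv g v x + G τ R (L * φ x) (∑ j ∈ s, (u j x - β j x) ^ 2)
    (∑ j ∈ s, ip g (β j) (β j) x) s.card - s.card * e ≤ Rv g' v' x
  c2 : ∀ x, 0 < ϖ x → Rv g v x - s.card * e ≤ Rv g' v' x

theorem cutoff {ϖ : X → ℝ} (hϖ : Smooth ϖ) (a : ℝ) {d : ℝ} (hd : 0 < d) :
    ∃ χ : X → ℝ, Smooth χ ∧ (∀ x, χ x ∈ Icc (0 : ℝ) 1) ∧ (∀ x, ϖ x ≤ a + d / 4 → χ x = 1) ∧
      ∀ x, a + 3 * d / 4 ≤ ϖ x → χ x = 0 :=
  ⟨fun x => Real.smoothTransition ((a + 3 * d / 4 - ϖ x) / (d / 2)),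
    Real.smoothTransition.contDiff.compM (CD.div_const (CD.sub cd_const hϖ) _),
    fun x => ⟨Real.smoothTransition.nonneg _, Real.smoothTransition.le_one _⟩,
    fun x h => Real.smoothTransition.one_of_one_le ((one_le_div (by linarith)).2 (by linarith)),
    fun x h => Real.smoothTransition.zero_of_nonpos
      (div_nonpos_of_nonpos_of_nonneg (by linarith) (by linarith))⟩

theorem step [CompactSpace X] [Fintype J] [DecidableEq J] (hn : 2 ≤ n) (hD : DEC n) (hT : TAIL n)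
    (hg : Met g) {φ ϖ σ : X → ℝ} {τ R p L e d : ℝ} (hτ : 0 < τ) (hR : 0 < R) (hp : 0 ≤ p)
    (hL : 0 ≤ L) (he : 0 < e) (hd : 0 < d) (hc : 128 * (2 + 2 * p) ≤ τ * R)
    (hβ : ∀ i, Smooth (β i)) (hϖ : Smooth ϖ) (hσ : Smooth σ) (φ0 : ∀ x, 0 ≤ φ x)
    (en : ∀ x, ∑ i, ip g (β i) (β i) x ≤ p + L * φ x) (zero : ∀ x, 0 < ϖ x → ∀ j, β j x = 0)
    (σ01 : ∀ x, σ x ∈ Icc (0 : ℝ) 1) (σ0 : ∀ x, ϖ x ≤ 0 → σ x = 0)
    (σ1 : ∀ x, 1 / 2 ≤ ϖ x → σ x = 1) (dσ : ∀ x, ip g σ σ x ≤ τ / 128) {j : J} (hj : j ∉ s)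
    (I : Inv g v β φ ϖ τ R L e d s g' v' u) :
    ∃ g'' v'' u', Inv g v β φ ϖ τ R L e d (insert j s) g'' v'' u' := by
  set a := 1 / 2 + s.card * d with ha
  have a0 : 1 / 2 ≤ a := le_add_of_nonneg_right (by positivity)
  have hc' := hϖ.cont
  obtain ⟨χ, χ1, χ2, χ3, χ4⟩ := cutoff hϖ a hd
  have ev0 : ∀ x, a + 3 * d / 4 < ϖ x → ∀ᶠ y in 𝓝 x, χ y = 0 := fun x h =>
    (hc'.continuousAt.eventually (lt_mem_nhds h)).mono fun y hy => χ4 y hy.le
  have cT : IsCompact (ϖ ⁻¹' Icc (a + d / 4) (a + 3 * d / 4)) :=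
    (isClosed_Icc.preimage hc').isCompact
  obtain ⟨δ, δ0, hδ⟩ := hT X g' v' I.met I.cc χ _ χ1 χ2 cT (fun x hx => by
    rcases lt_or_ge (ϖ x) (a + d / 4) with h | h
    · exact Or.inr ((hc'.continuousAt.eventually (gt_mem_nhds h)).mono fun y hy => χ3 y hy.le)
    · exact Or.inl (ev0 x (not_le.1 fun k => hx ⟨h, k⟩))) e he
  obtain ⟨A₀, hA₀⟩ := hD X g' v' I.met I.cc (ϖ ⁻¹' Ioi a) _ (isOpen_Ioi.preimage hc') cT
    (fun x hx => by have := hx.1; show a < ϖ x; linarith) (1 + R) δ δ0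
  obtain ⟨A, A₁, hA, A1, hA'⟩ := spring hg hτ hσ σ01 dσ A₀
  obtain ⟨μ, μ0, hμ⟩ := I.lt
  obtain ⟨w, μ', f, hw, μ'0, f1, f2, f3, hw'⟩ := ex (R := R) hn I.met I.cc hτ μ0
    (CD.sum fun i _ => (CD.sub (I.sm i) (hβ i)).pow 2) (hβ j) hA
    (fun x => Finset.sum_nonneg fun _ _ => sq_nonneg _) hμ fun x => (hA' x).1
  have f4 : ∀ t, HasDerivAt f (deriv f t) t := fun t => (f1.differentiable (by simp) t).hasDerivAt
  obtain ⟨v'', c1, c2, c3⟩ := hδ w hw (hA₀ w (fun t => (f (t ^ 2) + A₁) * t) hw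
    (((f1.comp (contDiff_id.pow 2)).add contDiff_const).mul contDiff_id) (by simp) (fun t => by
      have := ((((f4 (t ^ 2)).comp t (hasDerivAt_pow 2 t)).add_const A₁).fun_mul
        (hasDerivAt_id' t)).deriv
      simp only [Function.comp_def] at this
      rw [this]
      have := mul_nonneg (f2.deriv_nonneg (x := t ^ 2)) (sq_nonneg t)
      have := f3 (t ^ 2)
      simp only [Nat.cast_ofNat, Nat.add_one_sub_one, pow_one]
      nlinarith) fun x (hx : a < ϖ x) => by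
    have z1 := zero x (by linarith)
    have z2 : ∑ i ∈ s, (u i x - β i x) ^ 2 = 0 := Finset.sum_eq_zero fun i hi => by
      rw [(I.off x hx.le).2.2 i hi, z1]; simp
    obtain ⟨k1, -, k2⟩ := hw' x
    rw [z2, z1, zero_add, sub_zero] at k1 k2
    rw [(hA' x).2.2.1 (σ1 x (by linarith))] at k2
    exact ⟨abs_le.2 ⟨by nlinarith [sq_nonneg (w x + 1)], by nlinarith [sq_nonneg (w x - 1)]⟩, k2⟩)
  have sw : Smooth fun y => χ y * w y := CD.mul χ1 hw
  have up : ∀ i ∈ s, Function.update u j (fun y => χ y * w y) i = u i := fun i hi =>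
    Function.update_of_ne (ne_of_mem_of_not_mem hi hj) _ _
  have sρ : ∀ x, ∑ i ∈ insert j s, (Function.update u j (fun y => χ y * w y) i x - β i x) ^ 2 =
      ∑ i ∈ s, (u i x - β i x) ^ 2 + (χ x * w x - β j x) ^ 2 := fun x => by
    rw [Finset.sum_insert hj, Function.update_self, add_comm]
    exact congrArg (· + _) (Finset.sum_congr rfl fun i hi => by rw [up i hi])
  have hH : hv g' v' w = _ := funext fun x => (hw' x).2.1
  have ga := fun x q hq k1 k2 => gain_pt (x := x) (q := q) hg I.met hj hτ hR hp hq hc I.sm hβ hw hA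
    (hA' x).1 (I.eq x) (fun f => I.mo f x) k1 (by linarith [(hw' x).1]) k2 (hA' x).2.2.2 hH
  refine ⟨gb g' 1 fun y => χ y * w y, v'', Function.update u j fun y => χ y * w y,
    met_g I.met sw, c1, fun i => ?_, fun x i k => ?_,
    fun f x => (ip_g_le I.met _ f x).trans (I.mo f x), ⟨μ', μ'0, fun x => ?_⟩, fun x hx => ?_,
    fun x hx => ?_, fun x hx => ?_⟩
  · rcases eq_or_ne i j with rfl | h
    · rwa [Function.update_self]
    · rw [Function.update_of_ne h]; exact I.sm i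
  · rw [Finset.sum_insert hj, Function.update_self, gb, I.eq,
      Finset.sum_congr (s₁ := s) (f := fun l => pd i (Function.update u j _ l) x * pd k
        (Function.update u j _ l) x) rfl fun l hl => by rw [up l hl]]
    simp only [Pi.one_apply]
    ring
  · rw [sρ]
    refine le_trans (add_le_add_right ?_ _) (hw' x).1
    rcases le_or_gt (ϖ x) 0 with h | h
    · rw [χ3 x (by linarith), one_mul]
    · rw [zero x h, sub_zero, sub_zero, mul_pow]
      exact mul_le_of_le_one_left (sq_nonneg _) (pow_le_one₀ (χ2 x).1 (χ2 x).2)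
  · rw [Finset.card_insert_of_notMem hj, Nat.cast_succ] at hx
    have k := ev0 x (by linarith)
    obtain ⟨o1, o2, o3⟩ := I.off x (by linarith)
    have k2 : (fun y => χ y * w y) =ᶠ[𝓝 x] fun _ => 0 := k.mono fun y hy => by simp [hy]
    refine ⟨?_, fun i => (c2 x k i).trans (o2 i), fun i hi => ?_⟩
    · funext i l
      simp [gb, pd_congr k2, pd_const, o1]
    · rcases Finset.mem_insert.1 hi with rfl | hi
      · rw [Function.update_self]; exact k2.self_of_nhds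
      · rw [up i hi]; exact o3 i hi
  · have k1 := ga x (L * φ x) (mul_nonneg hL (φ0 x)) (en x) (Or.inl ((hA' x).2.1 (σ0 x hx)))
    have k2 := c3 x
    have k3 := I.c1 x hx
    have k4 := G_step (B := ip g (β j) (β j) x) (Z := w x - β j x) s.card hτ hR
      (mul_nonneg hL (φ0 x)) (Finset.sum_nonneg fun _ _ => sq_nonneg _)
      (Finset.sum_nonneg (s := s) fun i _ => hg.ip_nonneg (β i) x)
      (lt_of_le_of_lt (hw' x).1 (by linarith))
    rw [sρ, Finset.sum_insert hj, Finset.card_insert_of_notMem hj, add_comm (ip g (β j) _ x)]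
    rw [χ3 x (by linarith)] at k2 ⊢
    push_cast
    rw [one_mul]
    linarith
  · have z : ∀ i, ip g (β i) (β i) x = 0 := fun i => by
      have : β i =ᶠ[𝓝 x] fun _ => 0 :=
        (hc'.continuousAt.eventually (lt_mem_nhds hx)).mono fun y hy => zero y hy i
      rw [ip_congr this this, ip_const_left]
    have k1 := ga x 0 le_rfl (by simpa [z] using hp) (Or.inr (z j))
    rw [z j] at k1
    have k2 := c3 x
    have k3 := I.c2 x hx
    have k4 := mul_nonneg (sq_nonneg (χ x)) (le_trans (by simp; positivity) k1)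
    rw [Finset.card_insert_of_notMem hj]
    push_cast
    linarith

end Vale.Agent.P210F.Al
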